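import Vale.Agent.P021Z.Ar.Approx
import Vale.Agent.P021Z.An.Expand

/-! Bounds for a minor of the jet matrix at all places of a number field. -/

namespace Vale.Agent.N021B

open Polynomial NumberField Vale.Agent.P021Z

/-- An entry of the jet matrix. -/
noncomputable def ent {F : Type*} [CommRing F] {m : ℕ} (Q : Fin m → F[X]) (s h : ℕ)
    (α β : Fin m → ℕ) : F :=
  ((1 + X) ^ h * ∏ k, C ((α k).choose (β k) : F) * Q k ^ (α k - β k)).coeff s

theorem map_ent {F F' : Type*} [CommRing F] [CommRing F'] (f : F →+* F') {m : ℕ}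
    (Q : Fin m → F[X]) (s h : ℕ) (α β : Fin m → ℕ) :
    f (ent Q s h α β) = ent (fun k => (Q k).map f) s h α β := by
  unfold ent
  rw [← coeff_map]
  simp [Polynomial.map_prod]

/-- The Taylor polynomial of `log (1 + t)` over a field. -/
noncomputable def logT (F : Type*) [Field F] (T : ℕ) : F[X] :=
  ∑ k ∈ Finset.range T, C ((-1) ^ k / ((k : F) + 1)) * X ^ (k + 1)

theorem map_logT {F : Type*} [Field F] (f : F →+* ℂ) (T : ℕ) :
    (logT F T).map f = logTrunc T := by
  unfold logT logTrunc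
  simp [Polynomial.map_sum]

theorem det_scale {F : Type*} [Field F] (O : Subring F) {ι : Type*} [Fintype ι] [DecidableEq ι]
    {m : ℕ} (Q : ι → Fin m → F[X]) (s h : ι → ℕ) (α β : ι → Fin m → ℕ) (Δ : Fin m → F)
    (hQ : ∀ i k, C (Δ k) * Q i k ∈ lifts O.subtype) :
    ∃ z ∈ O, (Matrix.of fun i c => ent (Q i) (s i) (h c) (α c) (β i)).det *
      ∏ c, ∏ k, Δ k ^ α c k = (∏ i, ∏ k, Δ k ^ β i k) * z := by
  set E : Matrix ι ι F := Matrix.of fun i c => ent (Q i) (s i) (h c) (α c) (β i) with hEdef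
  set E' : Matrix ι ι F := Matrix.of fun i c =>
    ent (fun k => C (Δ k) * Q i k) (s i) (h c) (α c) (β i) with hE'def
  set a : ι → F := fun c => ∏ k, Δ k ^ (α c k) with ha
  set b : ι → F := fun i => ∏ k, Δ k ^ (β i k) with hb
  have hint : ∀ i c, E' i c ∈ Set.range O.subtype := by
    intro i c
    have : ((1 + X) ^ (h c) * ∏ k, C ((α c k).choose (β i k) : F) *
        (C (Δ k) * Q i k) ^ (α c k - β i k)) ∈ lifts O.subtype := by
      refine Subsemiring.mul_mem _ (Subsemiring.pow_mem _ (Subsemiring.add_mem _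
        (Subsemiring.one_mem _) (X_mem_lifts _)) _) ?_
      refine Subsemiring.prod_mem _ fun k _ => Subsemiring.mul_mem _ ?_
        (Subsemiring.pow_mem _ (hQ i k) _)
      exact C'_mem_lifts ⟨((α c k).choose (β i k) : ℕ), by simp⟩
    exact (lifts_iff_coeff_lifts _).1 this (s i)
  have hrel : ∀ i c, E i c * a c = b i * E' i c := by
    intro i c
    have key : (∏ k, C ((α c k).choose (β i k) : F) * (Q i k) ^ (α c k - β i k)) * C (a c) =
        C (b i) * ∏ k, C ((α c k).choose (β i k) : F) *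
          (C (Δ k) * Q i k) ^ (α c k - β i k) := by
      simp only [ha, hb, map_prod, ← Finset.prod_mul_distrib]
      refine Finset.prod_congr rfl fun k _ => ?_
      rcases le_or_gt (β i k) (α c k) with hle | hlt
      · obtain ⟨e, he⟩ := Nat.exists_eq_add_of_le hle
        rw [he, Nat.add_sub_cancel_left, map_pow, map_pow, pow_add, mul_pow]
        ring
      · simp [Nat.choose_eq_zero_of_lt hlt]
    simp only [hEdef, hE'def, Matrix.of_apply, ent]
    rw [← coeff_mul_C, ← coeff_C_mul, mul_assoc, key]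
    congr 1
    ring
  have hdet2 : E.det * ∏ c, a c = (∏ i, b i) * E'.det := by
    have e1 : (Matrix.of fun i c => a c * E i c).det = (∏ c, a c) * E.det :=
      Matrix.det_mul_row a E
    have e2 : (Matrix.of fun i c => b i * E' i c).det = (∏ i, b i) * E'.det :=
      Matrix.det_mul_column b E'
    rw [← e2, mul_comm, ← e1]
    congr 1
    ext i c
    simp only [Matrix.of_apply]
    rw [← hrel i c, mul_comm]
  choose E'' hE'' using hint
  have h1 : E' = O.subtype.mapMatrix (Matrix.of E'') := by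
    ext i c
    simp [← hE'' i c]
  refine ⟨E'.det, ?_, hdet2⟩
  rw [h1, ← RingHom.map_det]
  exact Subtype.prop _

/-- The valuation ring of a nonarchimedean absolute value. -/
def unitBall {F : Type*} [Field F] (v : AbsoluteValue F ℝ) (hv : IsNonarchimedean v) :
    Subring F where
  carrier := {x | v x ≤ 1}
  mul_mem' := fun {x y} hx hy => by
    simp only [Set.mem_ofPred_eq, map_mul] at *
    exact mul_le_one₀ hx (v.nonneg _) hy
  one_mem' := by simp
  add_mem' := fun {x y} hx hy => (hv x y).trans (max_le hx hy)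
  zero_mem' := by simp
  neg_mem' := fun {x} hx => by simpa using hx

theorem lcm_mul_logT_mem {F : Type*} [Field F] [CharZero F] (O : Subring F) (T : ℕ) :
    C ((Nat.lcmUpto T : ℕ) : F) * logT F T ∈ lifts O.subtype := by
  unfold logT
  rw [Finset.mul_sum]
  refine Subsemiring.sum_mem _ fun k hk => ?_
  rw [← mul_assoc, ← map_mul]
  refine Subsemiring.mul_mem _ (C'_mem_lifts ?_) (Subsemiring.pow_mem _ (X_mem_lifts _) _)
  have hd : k + 1 ∣ Nat.lcmUpto T := by
    unfold Nat.lcmUpto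
    exact Finset.dvd_lcm (f := id) (Finset.mem_Icc.2 ⟨by omega, by
      have := Finset.mem_range.1 hk
      omega⟩)
  obtain ⟨e, he⟩ := hd
  refine ⟨(((-1) ^ k * e : ℤ) : O), ?_⟩
  have : ((k : F) + 1) ≠ 0 := by exact_mod_cast Nat.succ_ne_zero k
  rw [he]
  simp only [map_intCast]
  push_cast
  field_simp

/-- The bound at a finite place. -/
theorem nonarch_bound {F : Type*} [Field F] [CharZero F] (v : AbsoluteValue F ℝ)
    (hv : IsNonarchimedean v) {ι : Type*} [Fintype ι] [DecidableEq ι] {m : ℕ} (γ : Fin m → F)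
    (T : Fin m → ℕ) (j s h : ι → ℕ) (α β : ι → Fin m → ℕ) :
    v ((Matrix.of fun i c => ent (fun k => C ((j i : F) * γ k) + logT F (T k)) (s i) (h c) (α c)
        (β i)).det * ∏ c, ∏ k, ((Nat.lcmUpto (T k) : ℕ) : F) ^ α c k) *
      ∏ i, ∏ k, max (v (γ k)) 1 ^ β i k ≤ ∏ c, ∏ k, max (v (γ k)) 1 ^ α c k := by
  set O := unitBall v hv
  have hO : ∀ x, x ∈ O ↔ v x ≤ 1 := fun x => Iff.rfl
  set p : Fin m → F := fun k => if v (γ k) ≤ 1 then 1 else (γ k)⁻¹ with hp
  have hp1 : ∀ k, v (p k) * max (v (γ k)) 1 = 1 := by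
    intro k
    simp only [hp]
    split_ifs with h1
    · simp [h1]
    · rw [max_eq_left (not_le.1 h1).le, map_inv₀]
      exact inv_mul_cancel₀ (by linarith [not_le.1 h1])
  have hp2 : ∀ k, p k ∈ O := by
    intro k
    rw [hO]
    have h1 := hp1 k
    have h2 : 1 ≤ max (v (γ k)) 1 := le_max_right _ _
    nlinarith [v.nonneg (p k)]
  have hp3 : ∀ k, p k * γ k ∈ O := by
    intro k
    rw [hO, map_mul]
    have h1 := hp1 k
    have h2 : v (γ k) ≤ max (v (γ k)) 1 := le_max_left _ _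
    nlinarith [v.nonneg (p k)]
  obtain ⟨z, hz, hdet⟩ := det_scale O (fun i k => C ((j i : F) * γ k) + logT F (T k)) s h α β
    (fun k => ((Nat.lcmUpto (T k) : ℕ) : F) * p k) (fun i k => by
      rw [mul_add, ← map_mul]
      refine Subsemiring.add_mem _ (C'_mem_lifts ⟨⟨_, O.mul_mem
        (natCast_mem O (Nat.lcmUpto (T k) * j i)) (hp3 k)⟩, ?_⟩) ?_
      · simp only [Subring.subtype_apply]
        push_cast
        ring
      · rw [mul_comm _ (p k), map_mul, mul_assoc]
        exact Subsemiring.mul_mem _ (C'_mem_lifts ⟨⟨_, hp2 k⟩, rfl⟩) (lcm_mul_logT_mem O _))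
  set D := (Matrix.of fun i c => ent (fun k => C ((j i : F) * γ k) + logT F (T k)) (s i) (h c)
    (α c) (β i)).det
  have h1 := congrArg v hdet
  simp only [mul_pow, Finset.prod_mul_distrib, map_mul, map_prod, map_pow] at h1 ⊢
  have e : ∀ δ : ι → Fin m → ℕ, (∏ i, ∏ k, v (p k) ^ δ i k) *
      ∏ i, ∏ k, max (v (γ k)) 1 ^ δ i k = 1 := by
    intro δ
    rw [← Finset.prod_mul_distrib]
    refine Finset.prod_eq_one fun i _ => ?_
    rw [← Finset.prod_mul_distrib]
    refine Finset.prod_eq_one fun k _ => ?_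
    rw [← mul_pow, hp1, one_pow]
  have hl : ∏ i, ∏ k, v ((Nat.lcmUpto (T k) : ℕ) : F) ^ β i k ≤ 1 :=
    Finset.prod_le_one (fun i _ => by positivity) fun i _ =>
      Finset.prod_le_one (fun k _ => by positivity) fun k _ =>
        pow_le_one₀ (v.nonneg _) ((hO _).1 (natCast_mem O _))
  have hz1 : v z ≤ 1 := (hO z).1 hz
  set La := ∏ c, ∏ k, v ((Nat.lcmUpto (T k) : ℕ) : F) ^ α c k
  set Lb := ∏ i, ∏ k, v ((Nat.lcmUpto (T k) : ℕ) : F) ^ β i k
  set Pa := ∏ c, ∏ k, v (p k) ^ α c k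
  set Pb := ∏ c, ∏ k, v (p k) ^ β c k
  set Ma := ∏ c, ∏ k, max (v (γ k)) 1 ^ α c k
  set Mb := ∏ c, ∏ k, max (v (γ k)) 1 ^ β c k
  have ea : Pa * Ma = 1 := e α
  have eb : Pb * Mb = 1 := e β
  have hMa : 0 ≤ Ma := by positivity
  have hLb : 0 ≤ Lb := by positivity
  calc v D * La * Mb = (v D * (La * Pa)) * Mb * Ma := by
        linear_combination (-(v D * La * Mb)) * ea
    _ = Lb * v z * (Pb * Mb) * Ma := by rw [h1]; ring
    _ ≤ 1 * Ma := by
        rw [eb, mul_one]
        exact mul_le_mul_of_nonneg_right (mul_le_one₀ hl (v.nonneg _) hz1) hMa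
    _ = Ma := one_mul _

theorem norm_coeff_le (p : ℂ[X]) (s : ℕ) (ρ B : ℝ) (hρ : 0 < ρ)
    (hB : ∀ t : ℂ, ‖t‖ = ρ → ‖p.eval t‖ ≤ B) : ‖p.coeff s‖ ≤ (ρ ^ s)⁻¹ * B := by
  set N := max s p.natDegree + 1 with hN
  obtain ⟨t, ht, hp⟩ := An.exists_circle_average N ρ hρ
  rw [hp s p (by omega) (by omega)]
  have hN0 : (0 : ℝ) < N := by positivity
  calc _ ≤ ∑ k ∈ Finset.range N, (N : ℝ)⁻¹ * ((ρ ^ s)⁻¹ * B) := by
        refine norm_sum_le_of_le _ fun k _ => ?_
        rw [norm_mul, norm_mul, norm_inv, norm_inv, norm_pow, ht, Complex.norm_natCast, mul_assoc]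
        gcongr
        exact hB _ (ht k)
    _ = _ := by
        rw [Finset.sum_const, Finset.card_range, nsmul_eq_mul]
        field_simp

theorem norm_det_le {ι : Type*} [Fintype ι] [DecidableEq ι] (E : Matrix ι ι ℂ) (u w : ι → ℝ)
    (h : ∀ i c, ‖E i c‖ ≤ u i * w c) :
    ‖E.det‖ ≤ (Fintype.card ι).factorial * ((∏ i, u i) * ∏ c, w c) := by
  rw [Matrix.det_apply']
  calc _ ≤ ∑ σ : Equiv.Perm ι, (∏ i, u i) * ∏ c, w c := by
        refine norm_sum_le_of_le _ fun σ _ => ?_
        have h1 : ‖((Equiv.Perm.sign σ : ℤ) : ℂ)‖ = 1 := by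
          rcases Int.units_eq_one_or (Equiv.Perm.sign σ) with h | h <;> simp [h]
        rw [norm_mul, h1, one_mul, norm_prod, ← Equiv.prod_comp σ u, ← Finset.prod_mul_distrib]
        exact Finset.prod_le_prod (fun _ _ => norm_nonneg _) fun c _ => h _ _
    _ = _ := by
        rw [Finset.sum_const, Finset.card_univ, Fintype.card_perm, nsmul_eq_mul]

/-- The trivial bound at an infinite place. -/
theorem triv_bound {ι : Type*} [Fintype ι] [DecidableEq ι] {m : ℕ} (r : Fin m → ℂ)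
    (T : Fin m → ℕ) (K : ℕ) (j s h : ι → ℕ) (hj : ∀ i, j i < K) (α β : ι → Fin m → ℕ) :
    ‖(Matrix.of fun i c => ent (fun k => C ((j i : ℂ) * r k) + logTrunc (T k)) (s i) (h c) (α c)
        (β i)).det‖ * ∏ i, ∏ k, max ‖r k‖ 1 ^ β i k ≤
      (Fintype.card ι).factorial * ((∏ i, (2 : ℝ) ^ s i) *
        ∏ c, (2 : ℝ) ^ h c * (2 * (K + 2 : ℝ)) ^ (∑ k, α c k)) *
        ∏ c, ∏ k, max ‖r k‖ 1 ^ α c k := by
  have hm : ∀ k, 0 < max ‖r k‖ 1 := fun k => lt_of_lt_of_le one_pos (le_max_right _ _)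
  have hb : 0 < ∏ i, ∏ k, max ‖r k‖ 1 ^ β i k :=
    Finset.prod_pos fun i _ => Finset.prod_pos fun k _ => pow_pos (hm k) _
  have h1 := norm_det_le (Matrix.of fun i c => ent (fun k => C ((j i : ℂ) * r k) +
    logTrunc (T k)) (s i) (h c) (α c) (β i))
    (fun i => (2 : ℝ) ^ s i * (∏ k, max ‖r k‖ 1 ^ β i k)⁻¹)
    (fun c => ((2 : ℝ) ^ h c * (2 * (K + 2 : ℝ)) ^ (∑ k, α c k)) * ∏ k, max ‖r k‖ 1 ^ α c k)
    (fun i c => by
      simp only [Matrix.of_apply, ent]
      refine (norm_coeff_le _ (s i) (1 / 2) ((2 : ℝ) ^ h c * ∏ k, (2 * (K + 2 : ℝ)) ^ α c k *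
        (max ‖r k‖ 1 ^ α c k * (max ‖r k‖ 1 ^ β i k)⁻¹)) (by norm_num) fun t ht => ?_).trans
        (le_of_eq ?_)
      · rw [eval_mul, eval_pow, eval_prod, norm_mul, norm_pow, norm_prod]
        have h2 : ‖eval t (1 + X : ℂ[X])‖ ≤ 2 := by
          simp only [eval_add, eval_one, eval_X]
          have := norm_add_le (1 : ℂ) t
          rw [norm_one, ht] at this
          linarith
        refine mul_le_mul (pow_le_pow_left₀ (norm_nonneg _) h2 _)
          (Finset.prod_le_prod (fun _ _ => norm_nonneg _) fun k _ => ?_) (by positivity)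
          (by positivity)
        have h3 : ‖eval t (C ((j i : ℂ) * r k) + logTrunc (T k))‖ ≤ (K + 2) * max ‖r k‖ 1 := by
          rw [eval_add, eval_C]
          have h4 := Ar.norm_logTrunc_sub_le (T k) t ht.le
          have h5 : ‖t‖ ^ T k ≤ 1 := pow_le_one₀ (norm_nonneg _) (by rw [ht]; norm_num)
          have h6 := Complex.norm_log_one_add_half_le_self (z := t) ht.le
          have h7 := norm_sub_norm_le (eval t (logTrunc (T k))) (Complex.log (1 + t))
          have h8 : ‖(j i : ℂ) * r k‖ ≤ K * max ‖r k‖ 1 := by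
            rw [norm_mul, Complex.norm_natCast]
            have : (j i : ℝ) ≤ K := by exact_mod_cast (hj i).le
            gcongr
            exact le_max_left _ _
          have h9 := norm_add_le ((j i : ℂ) * r k) (eval t (logTrunc (T k)))
          have h10 : 1 ≤ max ‖r k‖ 1 := le_max_right _ _
          rw [ht] at h6
          linarith
        rw [eval_mul, eval_C, eval_pow, norm_mul, norm_pow, Complex.norm_natCast]
        rcases le_or_gt (β i k) (α c k) with hle | hlt
        · obtain ⟨e, he⟩ := Nat.exists_eq_add_of_le hle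
          have h4 : (((α c k).choose (β i k) : ℕ) : ℝ) ≤ 2 ^ α c k := by
            exact_mod_cast Nat.choose_le_two_pow _ _
          have h5 : (K + 2 : ℝ) ^ e ≤ (K + 2 : ℝ) ^ α c k :=
            pow_le_pow_right₀ (by have : (0 : ℝ) ≤ K := by positivity
                                  linarith) (by omega)
          have h6 : max ‖r k‖ 1 ^ α c k * (max ‖r k‖ 1 ^ β i k)⁻¹ = max ‖r k‖ 1 ^ e := by
            have := (hm k).ne'
            rw [he, pow_add]
            field_simp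
          rw [h6, show α c k - β i k = e by omega, mul_pow, mul_assoc]
          refine mul_le_mul h4 ((pow_le_pow_left₀ (norm_nonneg _) h3 e).trans ?_) (by positivity)
            (by positivity)
          rw [mul_pow]
          gcongr
        · rw [Nat.choose_eq_zero_of_lt hlt, Nat.cast_zero, zero_mul]
          have := hm k
          positivity
      · rw [Finset.prod_mul_distrib, Finset.prod_mul_distrib, Finset.prod_pow_eq_pow_sum,
          Finset.prod_inv_distrib, one_div, inv_pow, inv_inv]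
        ring)
  rw [Finset.prod_mul_distrib, Finset.prod_inv_distrib, Finset.prod_mul_distrib] at h1
  rw [← le_div_iff₀ hb]
  refine h1.trans (le_of_eq ?_)
  rw [div_eq_mul_inv]
  ring

theorem prod_places {L : Type*} [Field L] [NumberField L] (f : InfinitePlace L → ℝ) :
    ∏ w, f w ^ w.mult = ∏ φ : L →+* ℂ, f (InfinitePlace.mk φ) := by
  classical
  rw [← Finset.prod_fiberwise Finset.univ InfinitePlace.mk (fun φ => f (InfinitePlace.mk φ))]
  refine Finset.prod_congr rfl fun w _ => ?_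
  rw [Finset.prod_congr rfl (g := fun _ => f w) fun φ hφ => by rw [(Finset.mem_filter.1 hφ).2],
    Finset.prod_const, InfinitePlace.card_filter_mk_eq]

theorem height_eq {L : Type*} [Field L] [NumberField L] (x : L) :
    Height.mulHeight₁ x =
      (∏ φ : L →+* ℂ, max ‖φ x‖ 1) * ∏ᶠ v : FinitePlace L, max (v x) 1 := by
  rw [NumberField.mulHeight₁_eq, prod_places fun w => max (w x) 1]
  simp only [InfinitePlace.apply]

/-- The product formula, in the form in which it is used. -/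
theorem global_bound {L : Type*} [Field L] [NumberField L] {ι : Type*} [Fintype ι] {m : ℕ}
    (γ : Fin m → L) (hγ : ∀ k, γ k ≠ 0) (α β : ι → Fin m → ℕ) (D : L) (hD : D ≠ 0)
    (U : (L →+* ℂ) → ℝ) (hU : ∀ φ, 0 ≤ U φ)
    (h1 : ∀ φ : L →+* ℂ, ‖φ D‖ * ∏ i, ∏ k, max ‖φ (γ k)‖ 1 ^ β i k ≤
      U φ * ∏ c, ∏ k, max ‖φ (γ k)‖ 1 ^ α c k)
    (h2 : ∀ v : FinitePlace L, v D * ∏ i, ∏ k, max (v (γ k)) 1 ^ β i k ≤
      ∏ c, ∏ k, max (v (γ k)) 1 ^ α c k) :
    ∏ i, ∏ k, Height.mulHeight₁ (γ k) ^ β i k ≤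
      (∏ φ, U φ) * ∏ c, ∏ k, Height.mulHeight₁ (γ k) ^ α c k := by
  classical
  have hfin : ((Function.mulSupport fun v : FinitePlace L => v D) ∪
      ⋃ k, Function.mulSupport fun v : FinitePlace L => v (γ k)).Finite :=
    (FinitePlace.hasFiniteMulSupport hD).union
      (Set.finite_iUnion fun k => FinitePlace.hasFiniteMulSupport (hγ k))
  set S := hfin.toFinset with hS
  have e1 : ∏ᶠ v : FinitePlace L, v D = ∏ v ∈ S, v D :=
    finprod_eq_prod_of_mulSupport_subset _ (by rw [hS, Set.Finite.coe_toFinset]; grind)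
  have e2 : ∀ k, ∏ᶠ v : FinitePlace L, max (v (γ k)) 1 = ∏ v ∈ S, max (v (γ k)) 1 := by
    intro k
    refine finprod_eq_prod_of_mulSupport_subset _ fun v hv => ?_
    rw [hS, Set.Finite.coe_toFinset]
    refine Or.inr (Set.mem_iUnion.2 ⟨k, fun h0 => hv ?_⟩)
    simp only at h0 ⊢
    rw [h0, max_self]
  have e3 := prod_abs_eq_one hD
  rw [prod_places fun w => w D, e1] at e3
  simp only [InfinitePlace.apply] at e3
  have e4 : ∀ δ : ι → Fin m → ℕ, ∏ i, ∏ k, Height.mulHeight₁ (γ k) ^ δ i k =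
      (∏ φ : L →+* ℂ, ∏ i, ∏ k, max ‖φ (γ k)‖ 1 ^ δ i k) *
        ∏ v ∈ S, ∏ i, ∏ k, max (v (γ k)) 1 ^ δ i k := by
    intro δ
    simp only [height_eq, e2, mul_pow, Finset.prod_mul_distrib, ← Finset.prod_pow]
    congr 1
    · rw [Finset.prod_comm (s := (Finset.univ : Finset (L →+* ℂ)))]
      exact Finset.prod_congr rfl fun i _ => Finset.prod_comm
    · rw [Finset.prod_comm (s := S)]
      exact Finset.prod_congr rfl fun i _ => Finset.prod_comm
  rw [e4, e4]
  have h3 : ∏ φ : L →+* ℂ, (‖φ D‖ * ∏ i, ∏ k, max ‖φ (γ k)‖ 1 ^ β i k) ≤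
      ∏ φ : L →+* ℂ, (U φ * ∏ c, ∏ k, max ‖φ (γ k)‖ 1 ^ α c k) :=
    Finset.prod_le_prod (fun _ _ => by positivity) fun φ _ => h1 φ
  have h4 : ∏ v ∈ S, (v D * ∏ i, ∏ k, max (v (γ k)) 1 ^ β i k) ≤
      ∏ v ∈ S, ∏ c, ∏ k, max (v (γ k)) 1 ^ α c k :=
    Finset.prod_le_prod (fun v _ => mul_nonneg (apply_nonneg v _) (by positivity)) fun v _ => h2 v
  have h5 := mul_le_mul h3 h4
    (Finset.prod_nonneg fun v _ => mul_nonneg (apply_nonneg v _) (by positivity))
    (Finset.prod_nonneg fun φ _ => mul_nonneg (hU φ) (by positivity))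
  rw [Finset.prod_mul_distrib, Finset.prod_mul_distrib, Finset.prod_mul_distrib,
    mul_mul_mul_comm, e3, one_mul] at h5
  rw [← mul_assoc]
  exact h5

end Vale.Agent.N021B
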