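import Vale.Agent.N021B.Place
import Vale.Agent.P021Z.ZE
import Vale.Agent.P021Z.Ar.Core

/-! The contradiction from good approximations of the periods at the infinite places. -/

namespace Vale.Agent.N021B

open Vale.Agent.P021Z NumberField

theorem params' (ν νm : ℝ) (hν : 2 < ν) (hνm : ν ≤ νm) (d a0 : ℕ) (hd : 0 < d) :
    ∃ (θ A η φ lam v0 w0 : ℝ) (m K : ℕ), 0 < θ ∧ θ < 1 ∧ 0 < A ∧ 0 < η ∧ η ≤ 1 / 2 ∧ 0 < φ ∧
      1 ≤ v0 ∧ 0 < K ∧ 1 + (ν - 1) * θ + 8 * (d * η) ≤ ν * A * (1 - η) ∧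
      K * θ ^ m * w0 < v0 ∧ v0 ≤ w0 ∧ ν * A ^ (m + 1) * v0 < η * K * θ ^ m ∧
      2 * (2 * Real.pi * (K * (a0 + 1)) + 1) * Real.exp 1 ≤ η * w0 ∧
      6 * φ ≤ η ∧ lam * φ = νm ∧ lam ≤ η * v0 ∧ 1 ≤ φ * v0 * θ ∧ 1 ≤ lam := by
  obtain ⟨θ, A, η0, hθ, hθA, hA2, hA1, hη0, hη01, hmain⟩ := Ar.params0 ν hν
  have hd1 : (1 : ℝ) ≤ d := by exact_mod_cast hd
  set η := η0 / d with hηdef
  have hη : 0 < η := by positivity
  have hdη : d * η = η0 := by
    rw [hηdef]
    field_simp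
  have hηle : η ≤ η0 := by nlinarith
  have ha1 : (1 : ℝ) ≤ a0 + 1 := by
    have : (0 : ℝ) ≤ a0 := by positivity
    linarith
  set η' := η / (a0 + 1) with hη'def
  have hη' : 0 < η' := by positivity
  have haη : (a0 + 1) * η' = η := by
    rw [hη'def]
    field_simp
  have hη'le : η' ≤ η := by nlinarith
  set φ := η / 6 with hφ
  have hφ0 : 0 < φ := by positivity
  set lam := νm / φ with hlam
  have hlam1 : 1 ≤ lam := by
    rw [hlam, le_div_iff₀ hφ0, hφ]
    linarith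
  set v0 := 1 + lam / η + 1 / (φ * θ) with hv0
  have h1 : 0 < lam / η := by positivity
  have h2 : 0 < 1 / (φ * θ) := by positivity
  obtain ⟨m, K, w0, hK, h3, h4, h5, h6⟩ := Ar.params1 ν θ A η' v0 (by linarith) hθ hθA hA2 hA1
    hη' (by linarith) (by linarith)
  have hA0 : 0 < A := by linarith
  refine ⟨θ, A, η, φ, lam, v0, w0, m, K, hθ, by linarith, hA0, hη, by linarith, hφ0,
    by linarith, hK, ?_, h3, h4, h5.trans_le (by gcongr), ?_, by rw [hφ]; linarith, ?_, ?_, ?_,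
    hlam1⟩
  · rw [hdη]
    have : 0 ≤ ν * A := by positivity
    nlinarith
  · have h7 : 2 * Real.pi * (K * (a0 + 1)) + 1 ≤ (a0 + 1) * (2 * Real.pi * K + 1) := by
      nlinarith
    calc _ ≤ 2 * ((a0 + 1) * (2 * Real.pi * K + 1)) * Real.exp 1 := by gcongr
      _ = (a0 + 1) * (2 * (2 * Real.pi * K + 1) * Real.exp 1) := by ring
      _ ≤ (a0 + 1) * (η' * w0) := by gcongr
      _ = η * w0 := by rw [← mul_assoc, haη]
  · rw [hlam]
    field_simp
  · have : lam / η ≤ v0 := by linarith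
    rw [div_le_iff₀ hη] at this
    linarith
  · have : 1 / (φ * θ) ≤ v0 := by linarith
    rw [div_le_iff₀ (by positivity)] at this
    linarith

theorem exists_separated {B : Type*} (s : B → ℝ) {P : B → Prop}
    (h : ∀ C : ℝ, ∃ x, C ≤ s x ∧ P x) (m : ℕ) (C : ℝ) :
    ∃ x : Fin m → B, (∀ k, P (x k)) ∧ (∀ k, C ≤ s (x k)) ∧
      ∀ k k', k < k' → C * s (x k) ≤ s (x k') := by
  choose f hf using h
  let x : ℕ → ℝ := fun n => Nat.rec C (fun _ y => max C (max (C * s (f y)) (s (f y)))) n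
  have hx0 : ∀ n, C ≤ x n := by
    intro n
    cases n with
    | zero => exact le_rfl
    | succ n => exact le_max_left _ _
  have hx1 : ∀ n, C * s (f (x n)) ≤ s (f (x (n + 1))) := fun n =>
    ((le_max_left _ _).trans (le_max_right _ _)).trans (hf (x (n + 1))).1
  have hx2 : ∀ n, s (f (x n)) ≤ s (f (x (n + 1))) := fun n =>
    ((le_max_right _ _).trans (le_max_right _ _)).trans (hf (x (n + 1))).1
  have hmono : Monotone fun n => s (f (x n)) := monotone_nat_of_le_succ hx2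
  refine ⟨fun k => f (x k), fun k => (hf _).2, fun k => (hx0 k).trans (hf _).1,
    fun k k' hk => (hx1 k).trans ?_⟩
  exact hmono (show (k : ℕ) + 1 ≤ (k' : ℕ) from hk)

theorem prod_height_pow {ι : Type*} [Fintype ι] {m : ℕ} (x : Fin m → ℝ) (hx : ∀ k, 0 < x k)
    (δ : ι → Fin m → ℕ) :
    ∏ i, ∏ k, x k ^ δ i k = Real.exp (∑ i, ∑ k, Real.log (x k) * δ i k) := by
  rw [Real.exp_sum]
  refine Finset.prod_congr rfl fun i _ => ?_
  rw [Real.exp_sum]
  refine Finset.prod_congr rfl fun k _ => ?_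
  rw [mul_comm, Real.exp_nat_mul, Real.exp_log (hx k)]

theorem exists_perm_le {ι : Type*} [Fintype ι] [DecidableEq ι] {m : ℕ}
    (Q : ι → Fin m → Polynomial ℂ) (s h : ι → ℕ) (α β : ι → Fin m → ℕ)
    (hdet : (Matrix.of fun i c => ent (Q i) (s i) (h c) (α c) (β i)).det ≠ 0) :
    ∃ σ : Equiv.Perm ι, ∀ c k, β (σ c) k ≤ α c k := by
  rw [Matrix.det_apply'] at hdet
  obtain ⟨σ, -, hσ⟩ := Finset.exists_ne_zero_of_sum_ne_zero hdet
  refine ⟨σ, fun c k => ?_⟩
  by_contra hlt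
  refine right_ne_zero_of_mul hσ (Finset.prod_eq_zero (Finset.mem_univ c) ?_)
  rw [Matrix.of_apply, ent, Finset.prod_eq_zero (Finset.mem_univ k)
    (by simp [Nat.choose_eq_zero_of_lt (not_le.1 hlt)]), mul_zero, Polynomial.coeff_zero]

/-- The inequality that a nonzero minor forces. -/
theorem minor_ineq {L : Type*} [Field L] [NumberField L] {ι : Type*} [Fintype ι] [DecidableEq ι]
    {m : ℕ} (γ : Fin m → L) (hγ : ∀ k, γ k ≠ 0) (T : Fin m → ℕ) (j s h : ι → ℕ)
    (α β : ι → Fin m → ℕ) (ψ₀ : L →+* ℂ) (η : ℝ) (x : (L →+* ℂ) → ℝ) (w : Fin m → ℝ)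
    (hw : ∀ k, Real.log (Height.mulHeight₁ (γ k)) ≤ w k)
    (hT : ∀ k, 6 * (T k : ℝ) ≤ 2 * η * w k)
    (hdet : (Matrix.of fun i c => ent (fun k => Polynomial.C ((j i : ℂ) * ψ₀ (γ k)) +
      logTrunc (T k)) (s i) (h c) (α c) (β i)).det ≠ 0)
    (hx : ∀ ψ : L →+* ℂ, ‖(Matrix.of fun i c => ent (fun k => Polynomial.C ((j i : ℂ) * ψ (γ k)) +
      logTrunc (T k)) (s i) (h c) (α c) (β i)).det‖ * ∏ i, ∏ k, max ‖ψ (γ k)‖ 1 ^ β i k ≤
        Real.exp (x ψ) * ∏ c, ∏ k, max ‖ψ (γ k)‖ 1 ^ α c k) :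
    ∑ i, ∑ k, w k * β i k ≤ ∑ ψ, x ψ +
      (1 + 2 * (Fintype.card (L →+* ℂ) * η)) * ∑ c, ∑ k, w k * α c k := by
  obtain ⟨σ, hσ⟩ := exists_perm_le _ s h α β hdet
  have hcmp : ∑ c, ∑ k, Real.log (Height.mulHeight₁ (γ k)) * α c k + ∑ i, ∑ k, w k * β i k ≤
      ∑ c, ∑ k, w k * α c k + ∑ i, ∑ k, Real.log (Height.mulHeight₁ (γ k)) * β i k := by
    rw [← Equiv.sum_comp σ fun i => ∑ k, w k * β i k,
      ← Equiv.sum_comp σ fun i => ∑ k, Real.log (Height.mulHeight₁ (γ k)) * β i k]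
    simp only [← Finset.sum_add_distrib]
    refine Finset.sum_le_sum fun c _ => Finset.sum_le_sum fun k _ => ?_
    have h1 : (β (σ c) k : ℝ) ≤ α c k := by exact_mod_cast hσ c k
    nlinarith [mul_nonneg (sub_nonneg.2 h1) (sub_nonneg.2 (hw k))]
  set D0 := (Matrix.of fun i c => ent (fun k => Polynomial.C ((j i : L) * γ k) + logT L (T k))
    (s i) (h c) (α c) (β i)).det with hD0
  have hmap : ∀ ψ : L →+* ℂ, ψ D0 = (Matrix.of fun i c => ent
      (fun k => Polynomial.C ((j i : ℂ) * ψ (γ k)) + logTrunc (T k)) (s i) (h c) (α c)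
        (β i)).det := by
    intro ψ
    rw [hD0, RingHom.map_det]
    congr 1
    ext i c
    simp [map_ent, map_logT]
  have hD00 : D0 ≠ 0 := fun h0 => hdet (by rw [← hmap, h0, map_zero])
  set a' := ∑ c, ∑ k, w k * α c k with ha'
  have hΛ : ∏ c, ∏ k, ((Nat.lcmUpto (T k) : ℕ) : ℝ) ^ α c k ≤ Real.exp (2 * η * a') := by
    rw [ha', Finset.mul_sum, Real.exp_sum]
    refine Finset.prod_le_prod (fun _ _ => by positivity) fun c _ => ?_
    exact prod_pow_le_exp _ _ _ _ (fun _ => by positivity) fun k =>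
      (Ar.lcm_le_exp (T k)).trans (Real.exp_le_exp.2 (hT k))
  have h1 := global_bound γ hγ α β (D0 * ∏ c, ∏ k, ((Nat.lcmUpto (T k) : ℕ) : L) ^ α c k)
    (mul_ne_zero hD00 (Finset.prod_ne_zero_iff.2 fun c _ => Finset.prod_ne_zero_iff.2 fun k _ =>
      pow_ne_zero _ (by exact_mod_cast (Nat.lcmUpto_pos _).ne')))
    (fun ψ => Real.exp (2 * η * a' + x ψ)) (fun _ => (Real.exp_pos _).le)
    (fun ψ => by
      have h2 := hx ψ
      rw [← hmap] at h2
      have h3 : ‖ψ (∏ c, ∏ k, ((Nat.lcmUpto (T k) : ℕ) : L) ^ α c k)‖ ≤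
          Real.exp (2 * η * a') := le_trans (le_of_eq (by simp)) hΛ
      rw [map_mul, norm_mul, mul_right_comm, add_comm, Real.exp_add,
        mul_right_comm (Real.exp (x ψ))]
      exact mul_le_mul h2 h3 (norm_nonneg _) (by positivity))
    (fun v => nonarch_bound v.1 (FinitePlace.add_le v) γ T j s h α β)
  rw [prod_height_pow _ fun k => Height.mulHeight₁_pos (γ k),
    prod_height_pow _ fun k => Height.mulHeight₁_pos (γ k), ← Real.exp_sum, ← Real.exp_add,
    Real.exp_le_exp, Finset.sum_add_distrib, Finset.sum_const, Finset.card_univ,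
    nsmul_eq_mul] at h1
  linarith

theorem final_ineq {ν A η η0 θ M H b a' y : ℝ} (hν : 2 < ν) (hη0 : 0 < η0) (hM : 0 < M)
    (hH : 0 < H) (hmain : 1 + (ν - 1) * θ + 8 * η0 ≤ ν * A * (1 - η)) (hb : b ≤ θ * H * M)
    (ha : a' ≤ H * M) (hy : y ≤ 4 * η0 * (M * H))
    (h : b ≤ y + ν * b - ν * (A * H * (1 - η) * M) + (1 + 2 * η0) * a') : False := by
  have h1 := mul_le_mul_of_nonneg_left hb (show 0 ≤ ν - 1 by linarith)
  have h2 := mul_le_mul_of_nonneg_left ha (show 0 ≤ 1 + 2 * η0 by linarith)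
  have h3 := mul_le_mul_of_nonneg_right hmain (mul_pos hM hH).le
  have h4 := mul_pos hη0 (mul_pos hM hH)
  nlinarith

set_option maxHeartbeats 1000000 in
theorem core {L : Type*} [Field L] [NumberField L] (a : (L →+* ℂ) → ℤ) (ν₁ : (L →+* ℂ) → ℝ)
    (h0 : ∀ ψ, 0 ≤ ν₁ ψ) (hsum : 2 < ∑ ψ, ν₁ ψ)
    (happ : ∀ C : ℝ, ∃ x : L × ℝ, C ≤ x.2 ∧ x.1 ≠ 0 ∧ Real.log (Height.mulHeight₁ x.1) ≤ x.2 ∧
      ∀ ψ : L →+* ℂ, 0 < ν₁ ψ →
        ‖2 * Real.pi * Complex.I * a ψ - ψ x.1‖ ≤ Real.exp (-(ν₁ ψ * x.2))) : False := by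
  classical
  set νm := ∑ ψ, ν₁ ψ with hνm
  have hνm0 : 0 < νm := by linarith
  set κ := (νm + 2) / (2 * νm) with hκ
  have hκ0 : 0 < κ := by positivity
  have hκ1 : κ < 1 := by
    rw [hκ, div_lt_one (by positivity)]
    linarith
  set ν := κ * νm with hνdef
  have hν : 2 < ν := by
    have : ν = (νm + 2) / 2 := by
      rw [hνdef, hκ]
      field_simp
    linarith
  have hνle : ν ≤ νm := by nlinarith
  have hν₁le : ∀ ψ, ν₁ ψ ≤ νm := fun ψ =>
    Finset.single_le_sum (f := ν₁) (fun ψ _ => h0 ψ) (Finset.mem_univ ψ)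
  obtain ⟨ψ₀⟩ : Nonempty (L →+* ℂ) := inferInstance
  set a0 := ∑ ψ, (a ψ).natAbs with ha0
  have ha : ∀ ψ, |(a ψ : ℝ)| ≤ a0 := fun ψ => by
    have : (a ψ).natAbs ≤ a0 :=
      Finset.single_le_sum (f := fun ψ => (a ψ).natAbs) (fun _ _ => Nat.zero_le _)
        (Finset.mem_univ ψ)
    rw [← Int.cast_abs, Int.abs_eq_natAbs, Int.cast_natCast]
    exact_mod_cast this
  set d := Fintype.card (L →+* ℂ) with hd
  have hd0 : 0 < d := Fintype.card_pos
  obtain ⟨θ, A, η, φ, lam, v0, w0, m, K, hθ, hθ1, hA, hη, hη1, hφ0, hv0, hK, hmain, hvol, hvw,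
    hNM, hR, hφ, hlam, hlamv, hTv, hlam1⟩ := params' ν νm hν hνle d a0 hd0
  have hK1 : (1 : ℝ) ≤ K := by exact_mod_cast hK
  have hm : 0 < m := by
    rcases Nat.eq_zero_or_pos m with h0 | h0
    · subst h0
      simp only [pow_zero, mul_one] at hvol
      nlinarith
    · exact h0
  obtain ⟨μ0, hμ1, hμ2, hμ⟩ := Ar.exists_mu (K * θ ^ m * w0) v0 (m + 1) hvol
  set c : ℝ := ((μ0 - 1) / (2 * (m + 2) ^ 2)) ^ (m + 1) * θ ^ m with hc
  have hc0 : 0 < c := by
    have : 0 < μ0 - 1 := by linarith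
    positivity
  set R := 2 * (2 * Real.pi * (K * (a0 + 1)) + 1) * Real.exp 1 with hRdef
  set L8 := Real.log (8 * R) with hL8
  set L2 := Real.log (K + 1) with hL2
  have c5' : ∀ ψ, 0 ≤ |L2| / ((1 - κ) * ν₁ ψ) := fun ψ =>
    div_nonneg (abs_nonneg _) (mul_nonneg (by linarith) (h0 ψ))
  set C5 := ∑ ψ, |L2| / ((1 - κ) * ν₁ ψ) with hC5
  set C : ℝ := 1 + 1 / (θ * c) + v0 / c + |L8| / η + 6 / η + C5 with hC
  have c1 : 0 < 1 / (θ * c) := by positivity
  have c2 : 0 < v0 / c := by positivity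
  have c3 : 0 ≤ |L8| / η := by positivity
  have c4 : 0 < 6 / η := by positivity
  have c5 : 0 ≤ C5 := Finset.sum_nonneg fun ψ _ => c5' ψ
  obtain ⟨γ, wq, hγ0, hγw, hγ, hqC, hsep⟩ : ∃ (γ : Fin m → L) (wq : Fin m → ℝ), (∀ k, γ k ≠ 0) ∧
      (∀ k, Real.log (Height.mulHeight₁ (γ k)) ≤ wq k) ∧ (∀ k (ψ : L →+* ℂ), 0 < ν₁ ψ →
        ‖2 * Real.pi * Complex.I * a ψ - ψ (γ k)‖ ≤ Real.exp (-(ν₁ ψ * wq k))) ∧
      (∀ k, C ≤ wq k) ∧ ∀ k k', k < k' → C * wq k ≤ wq k' := by
    obtain ⟨x, h1, h2, h3⟩ := exists_separated Prod.snd happ m C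
    exact ⟨fun k => (x k).1, fun k => (x k).2, fun k => (h1 k).1, fun k => (h1 k).2.1,
      fun k => (h1 k).2.2, h2, h3⟩
  have hwq1 : ∀ k, 1 ≤ wq k := fun k => le_trans (by linarith) (hqC k)
  have hwq0 : ∀ k, 0 < wq k := fun k => lt_of_lt_of_le one_pos (hwq1 k)
  set T : Fin m → ℕ := fun k => ⌈φ * wq k⌉₊ with hT
  have hT1 : ∀ k, φ * wq k ≤ T k := fun k => Nat.le_ceil _
  have hT2 : ∀ k, (T k : ℝ) ≤ φ * wq k + 1 := fun k =>
    (Nat.ceil_lt_add_one (mul_pos hφ0 (hwq0 k)).le).le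
  set r : Fin m → ℂ := fun k => ψ₀ (γ k) with hr
  set w : Fin (m + 1) → ℝ := Fin.cons w0 wq with hw
  set v : Fin (m + 1) → ℝ := Fin.cons v0 (fun k => wq k / θ) with hv
  have hvpos : ∀ i, 0 < v i := by
    intro i
    refine Fin.cases ?_ (fun k => ?_) i
    · simp only [hv, Fin.cons_zero]
      linarith
    · simp only [hv, Fin.cons_succ]
      exact div_pos (hwq0 k) hθ
  have hS : Setup θ w v r T := by
    refine ⟨hθ, hθ1, fun i => ?_, hvpos, hvw, fun k => rfl, fun k => ?_, fun k => ?_⟩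
    · refine Fin.cases ?_ (fun k => ?_) i
      · simp only [hw, Fin.cons_zero]
        linarith
      · exact hwq0 k
    · simp only [hv, Fin.cons_succ, Fin.cons_zero]
      rw [div_le_iff₀ hθ]
      have h1 : wq k ≤ φ * v0 * θ * wq k := le_mul_of_one_le_left (hwq0 k).le hTv
      have h2 : φ * wq k * (v0 * θ) ≤ (T k + 1) * (v0 * θ) := by
        have := hT1 k
        gcongr
        linarith
      nlinarith
    · exact (map_ne_zero ψ₀).2 (hγ0 k)
  have hsep' : ∀ i l, i < l → v i < c * w l := by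
    intro i l hil
    rcases Fin.eq_zero_or_eq_succ l with rfl | ⟨k', rfl⟩
    · exact absurd hil (Fin.not_lt_zero i)
    rcases Fin.eq_zero_or_eq_succ i with rfl | ⟨k, rfl⟩
    · simp only [hv, hw, Fin.cons_zero, Fin.cons_succ]
      have h1 : v0 / c < wq k' := lt_of_lt_of_le (by linarith) (hqC k')
      rw [div_lt_iff₀ hc0] at h1
      linarith
    · simp only [hv, hw, Fin.cons_succ]
      have h1 := hsep k k' (Fin.succ_lt_succ_iff.1 hil)
      have h2 : 1 / (θ * c) * wq k < C * wq k := mul_lt_mul_of_pos_right (by linarith) (hwq0 k)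
      have h3 : 1 / (θ * c) * wq k < wq k' := h2.trans_le h1
      rw [div_mul_eq_mul_div, one_mul, div_lt_iff₀ (by positivity)] at h3
      rw [div_lt_iff₀ hθ]
      linarith
  obtain ⟨H0, hH0⟩ := exists_minor (K := K) hm hS hμ1 hμ2
    (by
      simp only [hw, hv, Fin.cons_zero]
      linarith) hsep'
  set Wq := ∏ k, wq k with hWq
  have hWq0 : 0 < Wq := Finset.prod_pos fun k _ => hwq0 k
  have hPv : ∏ i, v i = v0 * (Wq / θ ^ m) := by
    rw [Fin.prod_univ_succ]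
    simp only [hv, Fin.cons_zero, Fin.cons_succ]
    rw [Finset.prod_div_distrib, Finset.prod_const, Finset.card_univ, Fintype.card_fin]
  have hPv0 : 0 < ∏ i, v i := Finset.prod_pos fun i _ => hvpos i
  obtain ⟨H1, hH1⟩ := Ar.eventually_log_le (K / ((m + 1).factorial * ∏ i, v i)) (∑ i, v i)
    (((m + 1 : ℕ) : ℝ) * Real.log 2) η (m + 1) (by positivity)
    (Finset.sum_nonneg fun i _ => (hvpos i).le) hη
  choose H2 hH2 using fun ψ => Ar.eventually_shift_le (κ * ν₁ ψ * A ^ (m + 1) * v0)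
    (η * K * θ ^ m) ((1 + ∑ k, κ * ν₁ ψ * wq k) / (κ * ν₁ ψ * A)) (m + 1)
    (lt_of_le_of_lt (by
      have := hν₁le ψ
      rw [hνdef]
      gcongr) hNM)
  set H := max (max H0 H1) (max (∑ ψ, |H2 ψ|) 1) with hH
  have hHH0 : H0 ≤ H := (le_max_left _ _).trans (le_max_left _ _)
  have hHH1 : H1 ≤ H := (le_max_right _ _).trans (le_max_left _ _)
  have hHH2 : ∀ ψ, H2 ψ ≤ H := fun ψ => (le_abs_self _).trans
    ((Finset.single_le_sum (f := fun ψ => |H2 ψ|) (fun _ _ => abs_nonneg _)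
      (Finset.mem_univ ψ)).trans ((le_max_left _ _).trans (le_max_right _ _)))
  have hH1' : 1 ≤ H := (le_max_right _ _).trans (le_max_right _ _)
  have hHpos : 0 < H := by linarith
  obtain ⟨col, hcol, hdet⟩ := hH0 H hHH0
  have hcard : (Fintype.card (Fin K × ↥(simplex v H)) : ℝ) = K * (simplex v H).card := by
    rw [Fintype.card_prod, Fintype.card_fin, Fintype.card_coe]
    push_cast
    rfl
  have hlo := card_simplex_lower hvpos hHpos
  have hhi := card_simplex_upper hvpos hHpos.le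
  rw [Fintype.card_fin] at hlo hhi
  set M : ℝ := (Fintype.card (Fin K × ↥(simplex v H)) : ℝ) with hM
  have hMlo : K * (H ^ (m + 1) / ((m + 1).factorial * ∏ i, v i)) ≤ M := by
    rw [hcard]
    gcongr
  have hMpos : 0 < M := lt_of_lt_of_le (by positivity) hMlo
  have hMhi : M ≤ K / ((m + 1).factorial * ∏ i, v i) * (H + ∑ i, v i) ^ (m + 1) := by
    rw [hcard]
    calc (K : ℝ) * (simplex v H).card
        ≤ K * ((H + ∑ i, v i) ^ (m + 1) / ((m + 1).factorial * ∏ i, v i)) := by gcongr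
      _ = _ := by ring
  have : Nonempty (Fin K × ↥(simplex v H)) := by
    rw [← Fintype.card_pos_iff]
    rw [hM] at hMpos
    exact_mod_cast hMpos
  have hβ : ∀ ρ : Fin K × ↥(simplex v H),
      v0 * ρ.2.1 0 + ∑ k : Fin m, wq k / θ * ρ.2.1 k.succ ≤ H := fun ρ => by
    have h1 := lt_of_mem_simplex ρ.2.2
    rw [wt, Fin.sum_univ_succ] at h1
    exact h1.le
  have hα : ∀ c, w0 * col c 0 + ∑ k : Fin m, wq k * col c k.succ ≤ H := fun c => by
    have h1 := hcol c
    rw [wt, Fin.sum_univ_succ] at h1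
    exact h1
  simp only [coeff_phi_monomial] at hdet
  set b := ∑ ρ : Fin K × ↥(simplex v H), ∑ k : Fin m, wq k * ρ.2.1 k.succ with hb
  have hineq := minor_ineq γ hγ0 T (fun ρ : Fin K × ↥(simplex v H) => (ρ.1 : ℕ))
    (fun ρ => ρ.2.1 0) (fun c => col c 0) (fun c k => col c k.succ) (fun ρ k => ρ.2.1 k.succ) ψ₀ η
    (fun ψ => M * (Real.log M + ((m + 1 : ℕ) : ℝ) * Real.log 2 + 3 * η * H) + κ * ν₁ ψ * b -
      κ * ν₁ ψ * A * H * (1 - η) * M) wq hγw
    (fun k => by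
      have h1 : 6 / η ≤ wq k := le_trans (by linarith) (hqC k)
      rw [div_le_iff₀ hη] at h1
      have h2 := hT2 k
      have h3 := mul_le_mul_of_nonneg_right hφ (hwq0 k).le
      linarith) hdet
    (fun ψ => place_bound (K := K) (fun k => ψ (γ k)) wq T (a ψ) a0 (ha ψ) (κ * ν₁ ψ) (ν₁ ψ) θ η
      lam v0 w0 H A R (mul_nonneg hκ0.le (h0 ψ)) hθ hθ1.le hη (by linarith) hA.le hHpos.le hRdef
      hR hlamv hlam1 (fun k => (hwq0 k).le)
      (fun k => by
        have h1 : |L8| / η ≤ wq k := le_trans (by linarith) (hqC k)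
        rw [div_le_iff₀ hη] at h1
        have := le_abs_self L8
        linarith)
      _ _ _ (fun ρ => ρ.1.2) _ _ hβ hα (by
        rcases (h0 ψ).eq_or_lt with h1 | h1
        · exact Or.inl (by rw [← h1, mul_zero])
        have hν0 : 0 < κ * ν₁ ψ := mul_pos hκ0 h1
        set νψ := κ * ν₁ ψ with hνψ
        set Nr : ℝ := (νψ * A * H + (1 + ∑ k, νψ * wq k)) ^ (m + 1) /
          ((m + 1).factorial * (1 * ∏ k, νψ * wq k)) with hNr
        have hNrM : Nr ≤ η * M := by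
          have h1 : νψ * A * H + (1 + ∑ k, νψ * wq k) =
              νψ * A * (H + (1 + ∑ k, νψ * wq k) / (νψ * A)) := by
            field_simp
          have h2 : ∏ k, νψ * wq k = νψ ^ m * Wq := by
            rw [Finset.prod_mul_distrib, Finset.prod_const, Finset.card_univ, Fintype.card_fin]
          have h3 := hH2 ψ H (hHH2 ψ)
          have hv00 : 0 < v0 := by linarith
          calc Nr = νψ * A ^ (m + 1) * v0 * (H + (1 + ∑ k, νψ * wq k) / (νψ * A)) ^ (m + 1) /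
                ((m + 1).factorial * (v0 * Wq)) := by
                rw [hNr, h1, h2, mul_pow, mul_pow, pow_succ νψ]
                field_simp
            _ ≤ η * K * θ ^ m * H ^ (m + 1) / ((m + 1).factorial * (v0 * Wq)) := by gcongr
            _ = η * (K * (H ^ (m + 1) / ((m + 1).factorial * ∏ i, v i))) := by
                rw [hPv]
                field_simp
            _ ≤ η * M := by gcongr
        have hNr0 : 0 ≤ Nr := by
          have : 0 ≤ ∑ k, νψ * wq k := Finset.sum_nonneg fun k _ => (mul_pos hν0 (hwq0 k)).le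
          have : 0 < ∏ k, νψ * wq k := Finset.prod_pos fun k _ => mul_pos hν0 (hwq0 k)
          positivity
        refine Or.inr ⟨h0 ψ, fun k => hγ k ψ h1, fun k => ?_, fun k => ?_, ⌊Nr⌋₊,
          (Nat.floor_le hNr0).trans hNrM, fun F hF => ?_⟩
        · calc ν₁ ψ * wq k ≤ νm * wq k := mul_le_mul_of_nonneg_right (hν₁le ψ) (hwq0 k).le
            _ = lam * (φ * wq k) := by rw [← mul_assoc, hlam]
            _ ≤ lam * T k := mul_le_mul_of_nonneg_left (hT1 k) (by linarith)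
        · have h2 : |L2| / ((1 - κ) * ν₁ ψ) ≤ C5 :=
            Finset.single_le_sum (f := fun ψ => |L2| / ((1 - κ) * ν₁ ψ)) (fun ψ _ => c5' ψ)
              (Finset.mem_univ ψ)
          have h3 : |L2| / ((1 - κ) * ν₁ ψ) ≤ wq k := le_trans (by linarith) (hqC k)
          rw [div_le_iff₀ (mul_pos (by linarith) h1)] at h3
          have := le_abs_self L2
          rw [hνψ]
          linarith
        · refine Nat.le_floor (An.card_le_simplex_prod (fun k => νψ * wq k)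
            (fun k => mul_pos hν0 (hwq0 k)) 1 one_pos _ (by positivity) F fun a ha => ?_)
          have h1 := (hF a ha).le
          rw [Finset.mul_sum] at h1
          simpa only [mul_assoc] using h1))
  have hlog := hH1 H hHH1 M hMpos hMhi
  have e1 : ∑ ψ, (M * (Real.log M + ((m + 1 : ℕ) : ℝ) * Real.log 2 + 3 * η * H) + κ * ν₁ ψ * b -
      κ * ν₁ ψ * A * H * (1 - η) * M) =
      d * (M * (Real.log M + ((m + 1 : ℕ) : ℝ) * Real.log 2 + 3 * η * H)) + ν * b -
        ν * (A * H * (1 - η) * M) := by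
    have e2 : ν = ∑ ψ, κ * ν₁ ψ := by rw [hνdef, hνm, Finset.mul_sum]
    rw [Finset.sum_sub_distrib, Finset.sum_add_distrib, Finset.sum_const, Finset.card_univ,
      nsmul_eq_mul, e2, Finset.sum_mul, Finset.sum_mul]
    congr 1
    exact Finset.sum_congr rfl fun ψ _ => by ring
  rw [e1] at hineq
  have hd1 : (0 : ℝ) < d := by exact_mod_cast hd0
  refine final_ineq hν (mul_pos hd1 hη) hMpos hHpos hmain ?_ ?_ ?_ hineq
  · calc b ≤ ∑ ρ : Fin K × ↥(simplex v H), θ * H := Finset.sum_le_sum fun ρ _ => by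
          have h1 := hβ ρ
          have h2 : ∑ k : Fin m, wq k / θ * ρ.2.1 k.succ =
              (∑ k : Fin m, wq k * ρ.2.1 k.succ) / θ := by
            rw [Finset.sum_div]
            exact Finset.sum_congr rfl fun k _ => by ring
          have h3 : 0 ≤ v0 * ρ.2.1 0 := by positivity
          rw [h2] at h1
          rw [mul_comm, ← div_le_iff₀ hθ]
          linarith
      _ = θ * H * M := by rw [Finset.sum_const, Finset.card_univ, nsmul_eq_mul, mul_comm]
  · calc _ ≤ ∑ c : Fin K × ↥(simplex v H), H := Finset.sum_le_sum fun c _ => by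
          have h1 := hα c
          have h3 : 0 ≤ w0 * col c 0 := mul_nonneg (by linarith) (by positivity)
          linarith
      _ = H * M := by rw [Finset.sum_const, Finset.card_univ, nsmul_eq_mul, mul_comm]
  · calc _ ≤ d * (M * (η * H + 3 * η * H)) := by gcongr
      _ = _ := by ring

end Vale.Agent.N021B
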