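import Vale.Agent.N021B.Core

/-! Approximation of rational multiples of `π` by elements of a number field. -/

namespace Vale.Agent.N021B

open NumberField Height

theorem finite_periods {L : Type*} [Field L] [NumberField L] (a : (L →+* ℂ) → ℤ) {ε : ℝ}
    (hε : 0 < ε) : {γ : L | ∏ ψ : L →+* ℂ, min 1 ‖2 * Real.pi * Complex.I * a ψ - ψ γ‖ <
      mulHeight₁ γ ^ (-(2 + ε))}.Finite := by
  classical
  set d := Fintype.card (L →+* ℂ) with hd
  have hd0 : (0 : ℝ) < d := by exact_mod_cast Fintype.card_pos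
  set δ := ε / (2 * d) with hδ
  have hδ0 : 0 < δ := by positivity
  have hdδ : d * δ = ε / 2 := by
    rw [hδ]
    field_simp
  set N0 := ⌈(2 + ε) / δ⌉₊ with hN0
  have hN0' : 2 + ε ≤ N0 * δ := by
    rw [← div_le_iff₀ hδ0]
    exact Nat.le_ceil _
  let P : L → (L →+* ℂ) → ℕ → Prop := fun γ ψ n =>
    min 1 ‖2 * Real.pi * Complex.I * a ψ - ψ γ‖ ≤ Real.exp (-(n * δ * Real.log (mulHeight₁ γ)))
  let n : L → (L →+* ℂ) → ℕ := fun γ ψ => Nat.findGreatest (P γ ψ) N0
  have hP : ∀ γ ψ, P γ ψ (n γ ψ) := fun γ ψ =>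
    Nat.findGreatest_spec (P := P γ ψ) (Nat.zero_le N0) (by simp [P])
  set S := {γ : L | ∏ ψ : L →+* ℂ, min 1 ‖2 * Real.pi * Complex.I * a ψ - ψ γ‖ <
      mulHeight₁ γ ^ (-(2 + ε))} with hS
  have hsum : ∀ γ ∈ S, 1 < mulHeight₁ γ → 2 < ∑ ψ, (n γ ψ : ℝ) * δ := by
    intro γ hγ h1
    have hl : 0 < Real.log (mulHeight₁ γ) := Real.log_pos h1
    by_cases hc : ∃ ψ, n γ ψ = N0
    · obtain ⟨ψ, hψ⟩ := hc
      have := Finset.single_le_sum (f := fun ψ => (n γ ψ : ℝ) * δ) (fun _ _ => by positivity)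
        (Finset.mem_univ ψ)
      simp only [hψ] at this
      linarith
    · push Not at hc
      have h2 : ∀ ψ, Real.exp (-(((n γ ψ + 1 : ℕ) : ℝ) * δ * Real.log (mulHeight₁ γ))) ≤
          min 1 ‖2 * Real.pi * Complex.I * a ψ - ψ γ‖ := fun ψ =>
        (not_le.1 (Nat.findGreatest_is_greatest (P := P γ ψ) (Nat.lt_succ_self _)
          (lt_of_le_of_ne (Nat.findGreatest_le N0) (hc ψ)))).le
      have h3 := (Finset.prod_le_prod (s := Finset.univ) (fun ψ _ => (Real.exp_pos _).le)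
        fun ψ _ => h2 ψ).trans_lt hγ
      rw [← Real.exp_sum, Real.rpow_def_of_pos (mulHeight₁_pos γ), Real.exp_lt_exp,
        Finset.sum_neg_distrib, ← Finset.sum_mul] at h3
      have h4 : ∑ ψ, ((n γ ψ + 1 : ℕ) : ℝ) * δ = ∑ ψ, (n γ ψ : ℝ) * δ + d * δ := by
        simp only [Nat.cast_add, Nat.cast_one, add_mul, Finset.sum_add_distrib, one_mul,
          Finset.sum_const, Finset.card_univ, nsmul_eq_mul, hd]
      rw [h4, hdδ] at h3
      by_contra hcon
      nlinarith [mul_le_mul_of_nonneg_right (not_lt.1 hcon) hl.le]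
  have hfib : ∀ g : (L →+* ℂ) → Fin (N0 + 1),
      {γ | γ ∈ S ∧ 1 < mulHeight₁ γ ∧ ∀ ψ, n γ ψ = g ψ}.Finite := by
    intro g
    by_contra hinf
    obtain ⟨γ₀, h1, h2, h3⟩ := Set.Infinite.nonempty hinf
    refine core a (fun ψ => (g ψ : ℝ) * δ) (fun _ => by positivity)
      (by simpa only [h3] using hsum γ₀ h1 h2) fun C => ?_
    obtain ⟨γ, ⟨-, h5, h6⟩, h7⟩ := Set.Infinite.nonempty
      (Set.Infinite.sdiff hinf (finite_setOfPred_mulHeight₁_le L (Real.exp C)))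
    refine ⟨(γ, Real.log (mulHeight₁ γ)), ?_, ?_, le_rfl, fun ψ hψ => ?_⟩
    · rw [Real.le_log_iff_exp_le (mulHeight₁_pos γ)]
      exact (not_le.1 h7).le
    · rintro rfl
      simp at h5
    · have h8 := hP γ ψ
      simp only [P, h6] at h8
      rcases min_le_iff.1 h8 with h9 | h9
      · rw [Real.one_le_exp_iff] at h9
        linarith [mul_pos hψ (Real.log_pos h5)]
      · exact h9
  refine ((finite_setOfPred_mulHeight₁_le L 1).union (Set.finite_iUnion hfib)).subset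
    fun γ hγ => ?_
  rcases le_or_gt (mulHeight₁ γ) 1 with h1 | h1
  · exact Or.inl h1
  · exact Or.inr (Set.mem_iUnion.2 ⟨fun ψ => ⟨n γ ψ, Nat.lt_succ_of_le (Nat.findGreatest_le N0)⟩,
      hγ, h1, fun _ => rfl⟩)

/-- The periods are transcendental. -/
theorem period_ne {L : Type*} [Field L] [NumberField L] (a : ℤ) (ψ : L →+* ℂ) {γ : L}
    (hγ : γ ≠ 0) : 2 * Real.pi * Complex.I * a - ψ γ ≠ 0 := by
  classical
  intro h
  refine core (fun _ => a) (fun φ => if φ = ψ then 3 else 0) (fun φ => by positivity)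
    (by simp; norm_num) fun C => ⟨(γ, max C (Real.log (mulHeight₁ γ))), le_max_left _ _, hγ,
      le_max_right _ _, fun φ hφ => ?_⟩
  obtain rfl : φ = ψ := by
    by_contra hne
    simp [hne] at hφ
  rw [h, norm_zero]
  exact (Real.exp_pos _).le

theorem lower_periods {L : Type*} [Field L] [NumberField L] (a : (L →+* ℂ) → ℤ) {ε : ℝ}
    (hε : 0 < ε) : ∃ κ : ℝ, 0 < κ ∧ ∀ γ : L, γ ≠ 0 → κ ≤ mulHeight₁ γ ^ (2 + ε) *
      ∏ ψ : L →+* ℂ, min 1 ‖2 * Real.pi * Complex.I * a ψ - ψ γ‖ := by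
  set f : L → ℝ := fun γ => mulHeight₁ γ ^ (2 + ε) *
      ∏ ψ : L →+* ℂ, min 1 ‖2 * Real.pi * Complex.I * a ψ - ψ γ‖ with hf
  have hpos : ∀ γ, γ ≠ 0 → 0 < f γ := fun γ hγ =>
    mul_pos (Real.rpow_pos_of_pos (mulHeight₁_pos γ) _) (Finset.prod_pos fun ψ _ =>
      lt_min one_pos (norm_pos_iff.2 (period_ne _ ψ hγ)))
  have hfin : {γ | γ ≠ 0 ∧ f γ < 1}.Finite := (finite_periods a hε).subset fun γ hγ => by
    have h1 := hγ.2
    simp only [Set.mem_ofPred_eq, hf] at h1 ⊢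
    rw [Real.rpow_neg (mulHeight₁_nonneg γ), ← mul_one (_⁻¹),
      lt_inv_mul_iff₀ (Real.rpow_pos_of_pos (mulHeight₁_pos γ) _)]
    exact h1
  rcases Set.eq_empty_or_nonempty {γ | γ ≠ 0 ∧ f γ < 1} with h | h
  · refine ⟨1, one_pos, fun γ hγ => not_lt.1 fun h1 => ?_⟩
    exact Set.notMem_empty γ (h ▸ ⟨hγ, h1⟩)
  · obtain ⟨γ₀, h1, h2⟩ := Set.exists_min_image _ f hfin h
    refine ⟨f γ₀, hpos γ₀ h1.1, fun γ hγ => ?_⟩
    rcases lt_or_ge (f γ) 1 with h3 | h3
    · exact h2 γ ⟨hγ, h3⟩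
    · exact h1.2.le.trans h3

theorem prod_comp_embedding {K L : Type*} [Field K] [NumberField K] [Field L] [NumberField L]
    [Algebra K L] (f : (K →+* ℂ) → ℝ) :
    ∏ ψ : L →+* ℂ, f (ψ.comp (algebraMap K L)) = (∏ φ, f φ) ^ Module.finrank K L := by
  classical
  rw [← Finset.prod_fiberwise Finset.univ (fun ψ : L →+* ℂ => ψ.comp (algebraMap K L)),
    ← Finset.prod_pow]
  refine Finset.prod_congr rfl fun φ _ => ?_
  rw [Finset.prod_congr rfl (g := fun _ => f φ) fun ψ hψ => by rw [(Finset.mem_filter.1 hψ).2],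
    Finset.prod_const]
  congr 1
  let : Algebra K ℂ := φ.toAlgebra
  rw [← AlgHom.card K L ℂ, ← Fintype.card_subtype]
  refine Fintype.card_congr ⟨fun ψ => { ψ.1 with commutes' := fun x => RingHom.congr_fun ψ.2 x },
    fun σ => ⟨σ.toRingHom, RingHom.ext fun x => σ.commutes x⟩, fun ψ => rfl, fun σ => rfl⟩

theorem height_algebraMap {K L : Type*} [Field K] [NumberField K] [Field L] [NumberField L]
    [Algebra K L] (β : K) :
    mulHeight₁ (algebraMap K L β) = mulHeight₁ β ^ Module.finrank K L := by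
  obtain ⟨a, b, hb, rfl⟩ := IsFractionRing.div_surjective (A := 𝓞 K) β
  have hb0 : b ≠ 0 := nonZeroDivisors.ne_zero hb
  set x : Fin 2 → 𝓞 K := ![a, b] with hx
  set x' : Fin 2 → 𝓞 L := fun i => algebraMap (𝓞 K) (𝓞 L) (x i) with hx'
  have e0 : ∀ i, (x' i : L) = algebraMap K L (x i : K) := fun i => rfl
  have e1 : ![algebraMap (𝓞 K) K a, algebraMap (𝓞 K) K b] = fun i => (x i : K) := by
    ext i
    fin_cases i <;> rfl
  have e2 : ![algebraMap K L (algebraMap (𝓞 K) K a), algebraMap K L (algebraMap (𝓞 K) K b)] =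
      fun i => (x' i : L) := by
    ext i
    fin_cases i <;> rfl
  have hx0 : x ≠ 0 := fun h => hb0 (congrFun h 1)
  have hx1 : (x 1 : K) ≠ 0 := by exact_mod_cast hb0
  have hx2 : (x' 1 : L) ≠ 0 := by
    rw [e0]
    exact (map_ne_zero _).2 hx1
  have hx'0 : x' ≠ 0 := fun h => hx2 (by rw [h]; rfl)
  rw [map_div₀, mulHeight₁_div_eq_mulHeight, mulHeight₁_div_eq_mulHeight, e1, e2,
    NumberField.mulHeight_eq (K := K) (Function.ne_iff.2 ⟨1, hx1⟩),
    NumberField.mulHeight_eq (K := L) (Function.ne_iff.2 ⟨1, hx2⟩), mul_pow,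
    prod_places fun w => ⨆ i, w (x i : K), prod_places fun w => ⨆ i, w (x' i : L),
    ← prod_comp_embedding]
  congr 1
  have h1 := absNorm_mul_finprod_finitePlace_eq_one hx0
  have h2 := absNorm_mul_finprod_finitePlace_eq_one hx'0
  have h3 : Ideal.span (Set.range x') =
      (Ideal.span (Set.range x)).map (algebraMap (𝓞 K) (𝓞 L)) := by
    rw [Ideal.map_span, ← Set.range_comp]
    rfl
  rw [h3, Ideal.absNorm_algebraMap, ← IsFractionRing.finrank_eq (𝓞 K) K (𝓞 L) L,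
    Nat.cast_pow] at h2
  rw [eq_inv_of_mul_eq_one_right h1, eq_inv_of_mul_eq_one_right h2, inv_pow]

/-- The analogue for `π` of Roth's theorem over number fields, at the infinite places. -/
theorem lower_field {K : Type*} [Field K] [NumberField K] (c : (K →+* ℂ) → ℚ) {ε : ℝ}
    (hε : 0 < ε) : ∃ κ : ℝ, 0 < κ ∧ ∀ β : K, β ≠ 0 → κ ≤ mulHeight₁ β ^ (2 + ε) *
      ∏ φ : K →+* ℂ, min 1 ‖(c φ : ℂ) * Real.pi - φ β‖ := by
  classical
  let L := (Polynomial.X ^ 2 + 1 : Polynomial K).SplittingField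
  have : NumberField L := NumberField.of_module_finite K L
  obtain ⟨i, hi⟩ : ∃ i : L, i ^ 2 = -1 := by
    obtain ⟨i, hi⟩ := (Polynomial.SplittingField.splits
      (Polynomial.X ^ 2 + 1 : Polynomial K)).exists_eval_eq_zero (by
        rw [Polynomial.degree_map, ← Polynomial.C_1, Polynomial.degree_X_pow_add_C (by norm_num)]
        norm_num)
    refine ⟨i, ?_⟩
    simp only [Polynomial.map_add, Polynomial.map_pow, Polynomial.map_X, Polynomial.map_one,
      Polynomial.eval_add, Polynomial.eval_pow, Polynomial.eval_X, Polynomial.eval_one] at hi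
    exact eq_neg_of_add_eq_zero_left hi
  have hs : ∀ ψ : L →+* ℂ, ∃ s : ℤ, ψ i = s * Complex.I ∧ ‖(s : ℂ)‖ = 1 := by
    intro ψ
    have h1 : ψ i ^ 2 = Complex.I ^ 2 := by rw [← map_pow, hi, Complex.I_sq, map_neg, map_one]
    rcases sq_eq_sq_iff_eq_or_eq_neg.1 h1 with h | h
    · exact ⟨1, by simp [h], by simp⟩
    · exact ⟨-1, by simp [h], by simp⟩
  choose s hs1 hs2 using hs
  set b : ℕ := ∏ φ, (c φ).den with hb
  have hb0 : 0 < b := Finset.prod_pos fun φ _ => (c φ).den_pos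
  have hb1 : (1 : ℝ) ≤ b := by exact_mod_cast hb0
  have hz : ∀ φ, ∃ z : ℤ, (z : ℂ) = b * (c φ : ℂ) := by
    intro φ
    obtain ⟨e, he⟩ : (c φ).den ∣ b := Finset.dvd_prod_of_mem _ (Finset.mem_univ φ)
    refine ⟨e * (c φ).num, ?_⟩
    have : ((e * (c φ).num : ℤ) : ℚ) = b * c φ := by
      rw [he]
      push_cast
      rw [mul_right_comm, Rat.den_mul_eq_num, mul_comm]
    exact_mod_cast congrArg (fun q : ℚ => (q : ℂ)) this
  choose z hz using hz
  have hi0 : i ≠ 0 := fun h => by simp [h] at hi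
  have hu : (2 * b * i : L) ≠ 0 :=
    mul_ne_zero (mul_ne_zero two_ne_zero (by exact_mod_cast hb0.ne')) hi0
  set e := Module.finrank K L with he
  have he0 : e ≠ 0 := Module.finrank_pos.ne'
  obtain ⟨κ, hκ, hκ'⟩ := lower_periods (fun ψ => s ψ * z (ψ.comp (algebraMap K L))) hε
  set C : ℝ := (2 * b) ^ Fintype.card (L →+* ℂ) * mulHeight₁ (2 * b * i : L) ^ (2 + ε) with hC
  have hC0 : 0 < C := mul_pos (by positivity) (Real.rpow_pos_of_pos (mulHeight₁_pos _) _)
  refine ⟨min 1 (κ / C), lt_min one_pos (div_pos hκ hC0), fun β hβ => ?_⟩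
  have h1 : ∀ ψ : L →+* ℂ, min 1 ‖2 * Real.pi * Complex.I *
      ((s ψ * z (ψ.comp (algebraMap K L)) : ℤ) : ℂ) - ψ (2 * b * i * algebraMap K L β)‖ ≤
      2 * b * min 1 ‖(c (ψ.comp (algebraMap K L)) : ℂ) * Real.pi -
        (ψ.comp (algebraMap K L)) β‖ := by
    intro ψ
    have h2 : 2 * Real.pi * Complex.I * ((s ψ * z (ψ.comp (algebraMap K L)) : ℤ) : ℂ) -
        ψ (2 * b * i * algebraMap K L β) = (2 * b * (s ψ * Complex.I)) *
          ((c (ψ.comp (algebraMap K L)) : ℂ) * Real.pi - (ψ.comp (algebraMap K L)) β) := by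
      simp only [map_mul, map_ofNat, map_natCast, hs1, Int.cast_mul, hz, RingHom.comp_apply]
      ring
    rw [h2, norm_mul, norm_mul, norm_mul, norm_mul, hs2, Complex.norm_I, Complex.norm_natCast,
      Complex.norm_ofNat, mul_one, mul_one, mul_min_of_nonneg _ _ (by positivity)]
    exact min_le_min (by linarith) le_rfl
  have h2 := Finset.prod_le_prod (s := Finset.univ) (fun ψ _ => by positivity) fun ψ _ => h1 ψ
  rw [Finset.prod_mul_distrib, Finset.prod_const, Finset.card_univ,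
    prod_comp_embedding fun φ => min 1 ‖(c φ : ℂ) * Real.pi - φ β‖] at h2
  have h3 := mulHeight₁_mul_le (2 * b * i : L) (algebraMap K L β)
  have h4 := Real.rpow_le_rpow (mulHeight₁_nonneg _) h3 (show 0 ≤ 2 + ε by linarith)
  rw [Real.mul_rpow (mulHeight₁_nonneg _) (mulHeight₁_nonneg _), height_algebraMap,
    ← Real.rpow_natCast, ← Real.rpow_mul (mulHeight₁_nonneg _), mul_comm _ (2 + ε),
    Real.rpow_mul (mulHeight₁_nonneg _), Real.rpow_natCast] at h4
  have h5 := (hκ' _ (mul_ne_zero hu ((map_ne_zero _).2 hβ))).trans (mul_le_mul h4 h2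
    (Finset.prod_nonneg fun _ _ => by positivity) (by positivity))
  set y := mulHeight₁ β ^ (2 + ε) * ∏ φ : K →+* ℂ, min 1 ‖(c φ : ℂ) * Real.pi - φ β‖ with hy
  have hy0 : 0 ≤ y := mul_nonneg (by positivity) (Finset.prod_nonneg fun _ _ => by positivity)
  have h6 : κ / C ≤ y ^ e := by
    rw [div_le_iff₀ hC0, hy, mul_pow, hC]
    exact h5.trans_eq (by ring)
  rcases le_total 1 y with h7 | h7
  · exact (min_le_left _ _).trans h7
  · exact (min_le_right _ _).trans (h6.trans (pow_le_of_le_one hy0 h7 he0))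

end Vale.Agent.N021B
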