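import Vale.Agent.N021B.Series

/-! Ergodic sums along the multiples of `θ`. -/

namespace Vale.Agent.N021B

open Real Set MeasureTheory

/-- `G` controls the variation of the periodic function `f`, with total `V` on a period. -/
structure Ctrl (f G : ℝ → ℝ) (V : ℝ) : Prop where
  per : Function.Periodic f 1
  var : ∀ y z, y ≤ z → |f z - f y| ≤ G z - G y
  tot : ∀ y, G (y + 1) - G y ≤ V

theorem Ctrl.mono {f G : ℝ → ℝ} {V : ℝ} (h : Ctrl f G V) : Monotone G := fun y z hyz => by
  linarith [h.var y z hyz, abs_nonneg (f z - f y)]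

theorem Ctrl.nonneg {f G : ℝ → ℝ} {V : ℝ} (h : Ctrl f G V) : 0 ≤ V := by
  linarith [h.tot 0, h.mono (show (0 : ℝ) ≤ 0 + 1 by norm_num)]

theorem Ctrl.integrable {f G : ℝ → ℝ} {V : ℝ} (h : Ctrl f G V) (a b : ℝ) :
    IntervalIntegrable f volume a b := by
  have h1 : Monotone fun y => G y - f y := fun y z hyz => by
    linarith [h.var y z hyz, le_abs_self (f z - f y)]
  simpa using (h.mono.intervalIntegrable (a := a) (b := b)).sub h1.intervalIntegrable

/-- The Denjoy-Koksma inequality. -/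
theorem Ctrl.block {f G : ℝ → ℝ} {V : ℝ} (h : Ctrl f G V) (θ x : ℝ) (r : ℚ)
    (hr : |θ - r| ≤ 1 / (r.den : ℝ) ^ 2) :
    |∑ n ∈ Finset.range r.den, f (x + n * θ) - r.den * ∫ t in (0 : ℝ)..1, f t| ≤ 2 * V := by
  classical
  set q := r.den with hq
  have hq0 : (0 : ℤ) < q := by exact_mod_cast r.den_pos
  have hq1 : (0 : ℝ) < q := by exact_mod_cast r.den_pos
  set k : ℕ → ℕ := fun n => (n * r.num % q).toNat with hk
  have hk1 : ∀ n, (k n : ℤ) = n * r.num % q := fun n =>
    Int.toNat_of_nonneg (Int.emod_nonneg _ hq0.ne')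
  have hk2 : ∀ n, k n < q := fun n => by
    have := Int.emod_lt_of_pos (n * r.num) hq0
    have := hk1 n
    omega
  have hinj : InjOn k (Finset.range q) := by
    intro n hn m hm hnm
    have h1 : (n * r.num : ℤ) % q = m * r.num % q := by rw [← hk1, ← hk1, hnm]
    have h2 : (q : ℤ) ∣ (n - m) * r.num := by
      rw [sub_mul]
      exact (Int.ModEq.dvd h1.symm)
    have h3 := r.isCoprime_num_den.symm.dvd_of_dvd_mul_right h2
    rw [Finset.coe_range, mem_Iio] at hn hm
    have := Int.eq_zero_of_abs_lt_dvd h3 (by rw [abs_lt]; omega)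
    omega
  have himg : (Finset.range q).image k = Finset.range q :=
    Finset.eq_of_subset_of_card_le (fun i hi => by
      obtain ⟨n, -, rfl⟩ := Finset.mem_image.1 hi
      exact Finset.mem_range.2 (hk2 n)) (Finset.card_image_of_injOn hinj).ge
  set a : ℕ → ℝ := fun i => x + i / q with ha
  have ha1 : ∀ i, a (i + 1) = a i + 1 / q := fun i => by
    simp only [ha]
    push_cast
    ring
  have hq2 : (0 : ℝ) < 1 / q := by positivity
  have h1 : ∫ t in (0 : ℝ)..1, f t = ∑ n ∈ Finset.range q, ∫ t in a (k n)..a (k n + 1), f t := by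
    rw [← Finset.sum_image (f := fun i => ∫ t in a i..a (i + 1), f t) hinj, himg,
      intervalIntegral.sum_integral_adjacent_intervals fun i _ => h.integrable _ _]
    have := h.per.intervalIntegral_add_eq 0 x
    simpa [ha, hq1.ne'] using this
  have h2 : ∀ n ∈ Finset.range q, |f (x + n * θ) - q * ∫ t in a (k n)..a (k n + 1), f t| ≤
      G (a (k n + 1)) - G (a (k n) - 1 / q) := by
    intro n hn
    have hn' : (n : ℝ) ≤ q := by exact_mod_cast (Finset.mem_range.1 hn).le
    set y := a (k n) + n * (θ - r) with hy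
    have h3 : f (x + n * θ) = f y := by
      have h4 : (n : ℝ) * r.num = k n + q * (n * r.num / q : ℤ) := by
        have := Int.emod_add_mul_ediv (n * r.num) q
        rw [← hk1] at this
        exact_mod_cast this.symm
      have h5 : x + n * θ = y + (n * r.num / q : ℤ) * 1 := by
        have h6 : (r : ℝ) = r.num / q := Rat.cast_def r
        generalize ((n * r.num / q : ℤ) : ℝ) = z at h4 ⊢
        simp only [hy, ha, h6]
        field_simp
        linear_combination h4
      rw [h5]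
      exact h.per.int_mul _ _
    have h4 : |n * (θ - r)| ≤ 1 / q := by
      rw [abs_mul, Nat.abs_cast]
      calc _ ≤ q * (1 / (q : ℝ) ^ 2) := by gcongr
        _ = _ := by field_simp
    rw [abs_le] at h4
    have h5 : f y - q * ∫ t in a (k n)..a (k n + 1), f t =
        q * ∫ t in a (k n)..a (k n + 1), (f y - f t) := by
      rw [intervalIntegral.integral_sub (by simp) (h.integrable _ _),
        intervalIntegral.integral_const, ha1, smul_eq_mul]
      field_simp
      ring
    have h6 := intervalIntegral.norm_integral_le_of_norm_le_const (a := a (k n))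
      (b := a (k n + 1)) (C := G (a (k n + 1)) - G (a (k n) - 1 / q)) (f := fun t => f y - f t)
      fun t ht => by
        rw [uIoc_of_le (by rw [ha1]; linarith), ha1] at ht
        rw [Real.norm_eq_abs, ha1]
        rcases le_total t y with h7 | h7
        · linarith [h.var t y h7, h.mono (show y ≤ a (k n) + 1 / q by linarith),
            h.mono (show a (k n) - 1 / q ≤ t by linarith [ht.1])]
        · rw [abs_sub_comm]
          linarith [h.var y t h7, h.mono ht.2, h.mono (show a (k n) - 1 / q ≤ y by linarith)]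
    rw [ha1 (k n), add_sub_cancel_left, abs_of_pos hq2, ← ha1, mul_one_div, le_div_iff₀ hq1,
      Real.norm_eq_abs] at h6
    rw [h3, h5, abs_mul, abs_of_pos hq1, mul_comm]
    exact h6
  rw [h1, Finset.mul_sum, ← Finset.sum_sub_distrib]
  refine (Finset.abs_sum_le_sum_abs _ _).trans ((Finset.sum_le_sum h2).trans ?_)
  rw [← Finset.sum_image (f := fun i => G (a (i + 1)) - G (a i - 1 / q)) hinj, himg]
  have h3 : ∀ i, G (a (i + 1)) - G (a i - 1 / q) = (G (a (i + 1)) - G (a i)) +
      (G (a (i + 1) - 1 / q) - G (a i - 1 / q)) := fun i => by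
    rw [ha1, add_sub_cancel_right]
    ring
  rw [Finset.sum_congr rfl fun i _ => h3 i, Finset.sum_add_distrib,
    Finset.sum_range_sub (fun i => G (a i)), Finset.sum_range_sub (fun i => G (a i - 1 / q))]
  have h4 : a q = a 0 + 1 := by simp [ha, hq1.ne']
  rw [h4, add_sub_right_comm]
  linarith [h.tot (a 0), h.tot (a 0 - 1 / q)]

theorem err_add (f : ℝ → ℝ) (θ x I : ℝ) (N M : ℕ) :
    |∑ n ∈ Finset.range (N + M), f (x + n * θ) - (N + M : ℕ) * I| ≤
      |∑ n ∈ Finset.range N, f (x + n * θ) - N * I| +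
        |∑ n ∈ Finset.range M, f (x + N * θ + n * θ) - M * I| := by
  refine le_of_eq_of_le ?_ (abs_add_le _ _)
  rw [Finset.sum_range_add]
  congr 1
  push_cast
  simp only [add_mul, add_assoc]
  ring

theorem koksma_ctrl {θ : ℝ} (hθ : RothType θ) {ε : ℝ} (hε : 0 < ε) : ∃ C : ℝ, 0 ≤ C ∧
    ∀ (f G : ℝ → ℝ) (V : ℝ), Ctrl f G V → ∀ (N : ℕ) (x : ℝ),
      |∑ n ∈ Finset.range N, f (x + n * θ) - N * ∫ t in (0 : ℝ)..1, f t| ≤
        C * V * (N : ℝ) ^ ε := by
  obtain ⟨c, hc, h⟩ := hθ ε hε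
  have hρ : (1 / 2 : ℝ) ^ ε < 1 := rpow_lt_one (by norm_num) (by norm_num) hε
  set ρ := (1 / 2 : ℝ) ^ ε with hρdef
  set C := 2 / c / (1 - ρ) with hC
  have hC0 : 0 ≤ C := div_nonneg (by positivity) (by linarith)
  refine ⟨C, hC0, fun f G V hf N => ?_⟩
  have hV := hf.nonneg
  induction N using Nat.strong_induction_on with
  | _ N ih =>
  intro x
  rcases Nat.eq_zero_or_pos N with rfl | hN
  · simp [zero_rpow hε.ne']
  obtain ⟨r, hr1, hr2⟩ := Real.exists_rat_abs_sub_le_and_den_le θ hN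
  have hq0 := r.den_pos
  have hq1 : (0 : ℝ) < r.den := by exact_mod_cast hq0
  have hqN : (r.den : ℝ) ≤ N := by exact_mod_cast hr2
  have hN0 : (0 : ℝ) < N := by linarith
  have h1 : ∀ (b : ℕ) (y : ℝ), |∑ n ∈ Finset.range (b * r.den), f (y + n * θ) -
      (b * r.den : ℕ) * ∫ t in (0 : ℝ)..1, f t| ≤ b * (2 * V) := by
    intro b
    induction b with
    | zero => simp
    | succ b ihb =>
      intro y
      rw [add_mul, one_mul]
      refine (err_add f θ y _ _ _).trans ?_
      have := hf.block θ (y + (b * r.den : ℕ) * θ) r (hr1.trans (by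
        rw [sq]
        gcongr
        linarith))
      push_cast at this ⊢
      have h2 := ihb y
      push_cast at h2
      linarith
  have h2 : ((N / r.den : ℕ) : ℝ) ≤ (N : ℝ) ^ ε / c := by
    have h3 := h r.den r.num (by exact_mod_cast hq0.ne')
    have h4 : |((r.den : ℤ) : ℝ) * θ - r.num| ≤ 1 / N := by
      have e : ((r.den : ℤ) : ℝ) * θ - r.num = r.den * (θ - r) := by
        rw [Rat.cast_def]
        push_cast
        field_simp
      rw [e, abs_mul, abs_of_pos hq1]
      calc _ ≤ (r.den : ℝ) * (1 / ((N + 1) * r.den)) := by gcongr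
        _ = 1 / (N + 1) := by field_simp
        _ ≤ 1 / N := by
            gcongr
            linarith
    rw [Int.cast_natCast, Nat.abs_cast, rpow_add hq1, rpow_one] at h3
    have h5 : c ≤ r.den * (N : ℝ) ^ ε * (1 / N) := h3.trans (by
      rw [Int.cast_natCast] at h4
      gcongr)
    refine Nat.cast_div_le.trans ?_
    rw [div_le_div_iff₀ hq1 hc]
    rw [mul_one_div, le_div_iff₀ hN0] at h5
    linarith
  have h3 : 2 * (N % r.den) < N := by
    have := Nat.mod_lt N hq0
    have := Nat.div_add_mod N r.den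
    have := Nat.le_mul_of_pos_right r.den (Nat.div_pos hr2 hq0)
    omega
  have h4 : ((N % r.den : ℕ) : ℝ) ^ ε ≤ ρ * (N : ℝ) ^ ε := by
    rw [hρdef, ← mul_rpow (by norm_num) hN0.le]
    have : (2 : ℝ) * (N % r.den : ℕ) ≤ N := by exact_mod_cast h3.le
    exact rpow_le_rpow (by positivity) (by linarith) hε.le
  have h5 := err_add f θ x (∫ t in (0 : ℝ)..1, f t) (N / r.den * r.den) (N % r.den)
  rw [Nat.div_add_mod' N r.den] at h5
  have h6 := ih (N % r.den) (by omega) (x + (N / r.den * r.den : ℕ) * θ)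
  calc _ ≤ (N : ℝ) ^ ε / c * (2 * V) + C * V * (ρ * (N : ℝ) ^ ε) :=
        h5.trans (add_le_add ((h1 _ x).trans (by gcongr)) (h6.trans (by gcongr)))
    _ = (2 / c + C * ρ) * V * (N : ℝ) ^ ε := by ring
    _ = _ := by
        have : 1 - ρ ≠ 0 := by linarith
        rw [hC]
        field_simp
        ring

theorem exists_ctrl {f : ℝ → ℝ} (hp : Function.Periodic f 1)
    (hf : BoundedVariationOn f (Icc 0 1)) :
    ∃ G, Ctrl f G (2 * (eVariationOn f (Icc 0 1)).toReal) := by
  have h1 : ∀ n : ℤ, eVariationOn f (Icc (n : ℝ) (n + 1)) = eVariationOn f (Icc 0 1) := by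
    intro n
    have h2 := eVariationOn.comp_eq_of_monotoneOn f (t := Icc 0 1) (fun y : ℝ => y + n)
      (fun _ _ _ _ h => by linarith)
    have h3 : f ∘ (fun y : ℝ => y + n) = f := funext fun y => by simpa using hp.int_mul n y
    rw [h3, image_add_const_Icc, zero_add, add_comm] at h2
    exact h2.symm
  have h2 : ∀ (n : ℤ) (k : ℕ), eVariationOn f (Icc (n : ℝ) (n + k)) =
      k * eVariationOn f (Icc 0 1) := by
    intro n k
    induction k with
    | zero => simp
    | succ k ih =>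
      have h3 := eVariationOn.Icc_add_Icc f (s := univ) (a := (n : ℝ)) (b := n + k)
        (c := n + k + 1) (by simp) (by simp) (mem_univ _)
      have h4 := h1 (n + k)
      push_cast at h4 ⊢
      rw [univ_inter, univ_inter, univ_inter, ih, h4] at h3
      rw [← add_assoc, ← h3, add_mul, one_mul]
  have h3 : LocallyBoundedVariationOn f univ := by
    intro a b _ _
    refine ne_top_of_le_ne_top ?_ (eVariationOn.mono f (s := Icc (⌊a⌋ : ℝ) (⌊a⌋ + ⌈b - ⌊a⌋⌉₊))
      fun y hy => ⟨(Int.floor_le a).trans hy.2.1, by linarith [hy.2.2, Nat.le_ceil (b - ⌊a⌋)]⟩)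
    rw [h2]
    exact ENNReal.mul_ne_top (by simp) hf
  refine ⟨variationOnFromTo f univ 0, hp, fun y z h => variationOnFromTo.abs_sub_le_sub_of_le h3
    (mem_univ _) (mem_univ _) (mem_univ _) h, fun y => ?_⟩
  rw [variationOnFromTo.sub_right h3 (mem_univ _) (mem_univ _) (mem_univ _),
    variationOnFromTo.eq_of_le f univ (by linarith)]
  have h4 := h2 ⌊y⌋ 2
  have h5 : univ ∩ Icc y (y + 1) ⊆ Icc (⌊y⌋ : ℝ) (⌊y⌋ + (2 : ℕ)) := fun t ht =>
    ⟨(Int.floor_le y).trans ht.2.1, by
      push_cast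
      linarith [ht.2.2, Int.lt_floor_add_one y]⟩
  refine (ENNReal.toReal_mono (ENNReal.mul_ne_top (by simp) hf)
    ((eVariationOn.mono f h5).trans_eq h4)).trans_eq (by simp)

theorem koksma {θ : ℝ} (hθ : RothType θ) {ε : ℝ} (hε : 0 < ε) : ∃ C : ℝ, 0 ≤ C ∧
    ∀ f : ℝ → ℝ, Function.Periodic f 1 → BoundedVariationOn f (Icc 0 1) → ∀ (N : ℕ) (x : ℝ),
      |∑ n ∈ Finset.range N, f (x + n * θ) - N * ∫ t in (0 : ℝ)..1, f t| ≤
        C * (eVariationOn f (Icc 0 1)).toReal * (N : ℝ) ^ ε := by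
  obtain ⟨C, hC, h⟩ := koksma_ctrl hθ hε
  refine ⟨2 * C, by positivity, fun f hp hf N x => ?_⟩
  obtain ⟨G, hG⟩ := exists_ctrl hp hf
  exact (h f G _ hG N x).trans_eq (by ring)

theorem discrepancy {θ : ℝ} (hθ : RothType θ) {ε : ℝ} (hε : 0 < ε) : ∃ C : ℝ,
    ∀ (N : ℕ) (x s t : ℝ), 0 ≤ s → s ≤ t → t ≤ 1 →
      |(({n | n < N ∧ Int.fract (x + n * θ) ∈ Ico s t} : Set ℕ).ncard : ℝ) - N * (t - s)| ≤
        C * (N : ℝ) ^ ε := by
  classical
  obtain ⟨C, hC, h⟩ := koksma_ctrl hθ hε
  have hc : Ctrl Int.fract (fun y => y + ⌊y⌋) 2 := by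
    refine ⟨fun y => Int.fract_add_one y, fun y z hyz => ?_, fun y => ?_⟩
    · have : (⌊y⌋ : ℝ) ≤ ⌊z⌋ := by exact_mod_cast Int.floor_mono hyz
      rw [abs_le, Int.fract, Int.fract]
      constructor <;> linarith
    · rw [Int.floor_add_one]
      push_cast
      linarith
  refine ⟨4 * C, fun N x s t hs hst ht => ?_⟩
  have h1 : ∀ y u : ℝ, 0 ≤ u → u ≤ 1 →
      Int.fract (y - u) = Int.fract y - u + if Int.fract y < u then 1 else 0 := by
    intro y u h0 h1
    have h2 := Int.fract_nonneg y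
    have h3 := Int.fract_lt_one y
    rw [Int.fract_eq_iff]
    split_ifs with h4
    · exact ⟨by linarith, by linarith, ⌊y⌋ - 1, by push_cast; rw [Int.fract]; ring⟩
    · exact ⟨by linarith, by linarith, ⌊y⌋, by rw [Int.fract]; ring⟩
  have h2 : (({n | n < N ∧ Int.fract (x + n * θ) ∈ Ico s t} : Set ℕ).ncard : ℝ) - N * (t - s) =
      ∑ n ∈ Finset.range N, Int.fract (x - t + n * θ) -
        ∑ n ∈ Finset.range N, Int.fract (x - s + n * θ) := by
    have e : ({n | n < N ∧ Int.fract (x + n * θ) ∈ Ico s t} : Set ℕ) =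
        ((Finset.range N).filter fun n : ℕ => Int.fract (x + n * θ) ∈ Ico s t : Finset ℕ) := by
      ext n
      simp
    rw [e, ncard_coe_finset, Finset.card_filter, ← Finset.sum_sub_distrib, sub_eq_iff_eq_add,
      ← nsmul_eq_mul, ← Finset.card_range N, ← Finset.sum_const, Finset.card_range,
      ← Finset.sum_add_distrib]
    push_cast
    refine Finset.sum_congr rfl fun n _ => ?_
    rw [sub_add_eq_add_sub x t, sub_add_eq_add_sub x s, h1 _ t (by linarith) ht,
      h1 _ s hs (by linarith)]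
    simp only [mem_Ico]
    split_ifs with h3 h4 h5 h4 h5 h5 <;> grind
  rw [h2]
  have h3 := abs_le.1 (h _ _ _ hc N (x - t))
  have h4 := abs_le.1 (h _ _ _ hc N (x - s))
  rw [abs_le]
  constructor <;> linarith [h3.1, h3.2, h4.1, h4.2]

/-- The truncated logarithm of `|2 sin (π x)|`. -/
noncomputable def tlog (δ x : ℝ) : ℝ := log (max |2 * sin (π * x)| δ)

theorem tlog_periodic (δ : ℝ) : Function.Periodic (tlog δ) 1 := fun x => by
  simp [tlog, mul_add, sin_add_pi]

theorem tlog_var {δ : ℝ} (hδ : 0 < δ) (hδ1 : δ ≤ 1) :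
    eVariationOn (tlog δ) (Icc 0 1) ≤ ENNReal.ofReal (2 * (log 2 - log δ)) := by
  have hpi := pi_pos
  have h1 : MonotoneOn (tlog δ) (Icc 0 (1 / 2)) := by
    intro x hx y hy hxy
    have h2 : 0 ≤ sin (π * x) :=
      sin_nonneg_of_nonneg_of_le_pi (by nlinarith [hx.1]) (by nlinarith [hx.2])
    have h3 : sin (π * x) ≤ sin (π * y) :=
      sin_le_sin_of_le_of_le_pi_div_two (by nlinarith [hx.1]) (by nlinarith [hy.2])
        (by nlinarith)
    refine log_le_log (lt_max_of_lt_right hδ) (max_le_max ?_ le_rfl)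
    rw [abs_of_nonneg (by linarith), abs_of_nonneg (by linarith)]
    linarith
  have h2 := (h1.eVariationOn_eq (a := 0) (b := 1 / 2) (by norm_num) (by norm_num)).le
  have h3 : tlog δ (1 / 2) - tlog δ 0 = log 2 - log δ := by
    rw [tlog, tlog, mul_one_div, sin_pi_div_two, mul_zero, sin_zero, mul_zero, abs_zero, mul_one,
      abs_two, max_eq_left (by linarith), max_eq_right hδ.le]
  rw [inter_self, h3] at h2
  have h4 := eVariationOn.comp_eq_of_antitoneOn (tlog δ) (t := Icc 0 (1 / 2))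
    (fun y : ℝ => 1 - y) (fun _ _ _ _ h => by linarith)
  have h5 : tlog δ ∘ (fun y : ℝ => 1 - y) = tlog δ := funext fun y => by
    simp [tlog, mul_sub, sin_pi_sub]
  rw [h5, image_const_sub_Icc, sub_zero, show (1 : ℝ) - 1 / 2 = 1 / 2 by norm_num] at h4
  have h6 := eVariationOn.Icc_add_Icc (tlog δ) (s := univ) (a := 0) (b := 1 / 2) (c := 1)
    (by norm_num) (by norm_num) (mem_univ _)
  have h7 : 0 ≤ log 2 - log δ := sub_nonneg.2 (log_le_log hδ (by linarith))
  rw [univ_inter, univ_inter, univ_inter, ← h4] at h6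
  rw [← h6, two_mul, ENNReal.ofReal_add h7 h7]
  exact add_le_add h2 h2

theorem tlog_integral : ∃ J : ℝ, 0 ≤ J ∧ ∀ δ : ℝ, 0 < δ → δ ≤ 1 →
    |∫ x in (0 : ℝ)..1, tlog δ x| ≤ J * √δ := by
  have hpi := pi_pos
  have i1 : IntervalIntegrable (fun x : ℝ => x ^ (-(1 / 2) : ℝ)) volume 0 1 :=
    intervalIntegral.intervalIntegrable_rpow' (by norm_num)
  have i2 : IntervalIntegrable (fun x : ℝ => (1 - x) ^ (-(1 / 2) : ℝ)) volume 0 1 := by
    simpa using (i1.comp_sub_left 1).symm
  have i3 : IntervalIntegrable (fun x : ℝ => log (sin (π * x))) volume 0 1 := by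
    simpa [pi_ne_zero] using (intervalIntegrable_log_sin (a := 0) (b := π)).comp_mul_left (c := π)
  have i4 : IntervalIntegrable (fun x : ℝ => log 2 + log (sin (π * x))) volume 0 1 :=
    intervalIntegrable_const.add i3
  have e1 : ∫ x in (0 : ℝ)..1, (log 2 + log (sin (π * x))) = 0 := by
    rw [intervalIntegral.integral_add intervalIntegrable_const i3,
      intervalIntegral.integral_comp_mul_left (fun x => log (sin x)) pi_ne_zero, mul_zero, mul_one,
      integral_log_sin_zero_pi]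
    simp
    field_simp
    ring
  set J := ∫ x in (0 : ℝ)..1, (x ^ (-(1 / 2) : ℝ) + (1 - x) ^ (-(1 / 2) : ℝ)) with hJ
  refine ⟨J, intervalIntegral.integral_nonneg zero_le_one fun x hx => add_nonneg
    (rpow_nonneg hx.1 _) (rpow_nonneg (sub_nonneg.2 hx.2) _), fun δ hδ hδ1 => ?_⟩
  obtain ⟨G, hG⟩ := exists_ctrl (tlog_periodic δ)
    (ne_top_of_le_ne_top ENNReal.ofReal_ne_top (tlog_var hδ hδ1))
  have i5 := hG.integrable 0 1
  have hs : ∀ x ∈ Ioo (0 : ℝ) 1, 0 < sin (π * x) := fun x hx =>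
    sin_pos_of_pos_of_lt_pi (by nlinarith [hx.1]) (by nlinarith [hx.2])
  have h1 := intervalIntegral.integral_mono_on_of_le_Ioo zero_le_one i4 i5 fun x hx => by
    have := hs x hx
    rw [← log_mul two_ne_zero this.ne']
    exact log_le_log (by positivity) ((le_abs_self _).trans (le_max_left _ _))
  have h2 := intervalIntegral.integral_mono_on_of_le_Ioo zero_le_one i5
    (i4.add ((i1.add i2).const_mul √δ)) fun x hx => by
      have h3 := hs x hx
      have h4 : 0 < 1 - x := sub_pos.2 hx.2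
      have h5 := hx.1
      rw [← log_mul two_ne_zero h3.ne', tlog, abs_of_pos (by positivity)]
      rcases le_total δ (2 * sin (π * x)) with h6 | h6
      · rw [max_eq_left h6]
        exact le_add_of_nonneg_right (by positivity)
      · have h7 : ∀ y : ℝ, 0 < y → 4 * y ≤ 2 * sin (π * x) →
            log δ ≤ log (2 * sin (π * x)) + √δ * y ^ (-(1 / 2) : ℝ) := fun y hy h8 => by
          have h9 := log_le_rpow_div (x := δ / (2 * sin (π * x))) (by positivity)
            (show (0 : ℝ) < 1 / 2 by norm_num)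
          have h10 : (δ / (2 * sin (π * x))) ^ (1 / 2 : ℝ) ≤ (δ / (4 * y)) ^ (1 / 2 : ℝ) := by
            gcongr
          rw [log_div hδ.ne' (by positivity)] at h9
          rw [div_rpow hδ.le (x := δ) (y := 4 * y) (by positivity),
            mul_rpow (by norm_num) hy.le, ← sqrt_eq_rpow δ, ← sqrt_eq_rpow 4,
            show √(4 : ℝ) = 2 by rw [show (4 : ℝ) = 2 ^ 2 by norm_num, sqrt_sq (by norm_num)]]
            at h10
          rw [rpow_neg hy.le]
          have h11 : √δ / (2 * y ^ (1 / 2 : ℝ)) = (√δ * (y ^ (1 / 2 : ℝ))⁻¹) / 2 := by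
            field_simp
          linarith
        rw [max_eq_right h6, mul_add]
        rcases le_total x (1 / 2) with h8 | h8
        · have h9 := mul_le_sin (x := π * x) (by positivity) (by nlinarith)
          rw [← mul_assoc, div_mul_cancel₀ _ pi_ne_zero] at h9
          have : 0 ≤ √δ * (1 - x) ^ (-(1 / 2) : ℝ) := by positivity
          linarith [h7 x h5 (by linarith)]
        · have h9 := mul_le_sin (x := π * (1 - x)) (by positivity) (by nlinarith)
          rw [← mul_assoc, div_mul_cancel₀ _ pi_ne_zero, mul_sub π, mul_one, sin_pi_sub] at h9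
          have : 0 ≤ √δ * x ^ (-(1 / 2) : ℝ) := by positivity
          linarith [h7 (1 - x) h4 (by linarith)]
  rw [intervalIntegral.integral_add i4 ((i1.add i2).const_mul √δ), e1, zero_add,
    intervalIntegral.integral_const_mul, ← hJ, mul_comm] at h2
  rw [e1] at h1
  rwa [abs_of_nonneg h1]

theorem sudler {θ : ℝ} (hθ : RothType θ) {ε : ℝ} (hε : 0 < ε) : ∃ C : ℝ, ∀ N : ℕ,
    exp (-(C * (N : ℝ) ^ ε)) ≤ ∏ n ∈ Finset.Icc 1 N, |2 * sin (π * n * θ)| ∧
      ∏ n ∈ Finset.Icc 1 N, |2 * sin (π * n * θ)| ≤ exp (C * (N : ℝ) ^ ε) := by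
  obtain ⟨c₀, hc₀, h⟩ := hθ 1 one_pos
  set c := min 1 c₀ with hc
  have hc0 : 0 < c := lt_min one_pos hc₀
  have hc1 : c ≤ 1 := min_le_left _ _
  obtain ⟨C, hC, hK⟩ := koksma hθ (half_pos hε)
  obtain ⟨J, hJ, hJ'⟩ := tlog_integral
  have hlc : 0 ≤ log 2 - log c := sub_nonneg.2 (log_le_log hc0 (by linarith))
  refine ⟨C * (2 * (log 2 - log c + 4 / ε)) + J, fun N => ?_⟩
  rcases Nat.eq_zero_or_pos N with rfl | hN
  · simp [zero_rpow hε.ne']
  have hN1 : (1 : ℝ) ≤ N := by exact_mod_cast hN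
  set δ := c / (N : ℝ) ^ 2 with hδ
  have hδ0 : 0 < δ := by positivity
  have hδ1 : δ ≤ 1 := (div_le_self hc0.le (one_le_pow₀ hN1)).trans hc1
  have h1 : ∀ n ∈ Finset.Icc 1 N, δ ≤ |2 * sin (π * n * θ)| := by
    intro n hn
    rw [Finset.mem_Icc] at hn
    have h2 := h n (round (n * θ)) (by omega)
    have h3 : (n : ℝ) ≤ N := by exact_mod_cast hn.2
    rw [Int.cast_natCast, Nat.abs_cast, one_add_one_eq_two, rpow_two] at h2
    have h4 : δ ≤ |n * θ - round (n * θ)| := by
      rw [hδ, div_le_iff₀ (by positivity), mul_comm]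
      exact (min_le_right _ _).trans (h2.trans (by gcongr))
    rw [abs_mul, abs_two, mul_assoc]
    linarith [le_abs_sin (n * θ), abs_nonneg (sin (π * (n * θ)))]
  have h2 : ∏ n ∈ Finset.Icc 1 N, |2 * sin (π * n * θ)| =
      exp (∑ n ∈ Finset.range N, tlog δ (θ + n * θ)) := by
    rw [exp_sum, Finset.range_eq_Ico, ← Finset.Ico_add_one_right_eq_Icc,
      ← Finset.prod_Ico_add' _ 0 N 1]
    refine Finset.prod_congr rfl fun n hn => ?_
    have h3 := h1 (n + 1) (by
      rw [Finset.mem_Ico] at hn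
      rw [Finset.mem_Icc]
      omega)
    rw [tlog, show π * (θ + n * θ) = π * (n + 1 : ℕ) * θ by push_cast; ring, max_eq_left h3,
      exp_log (hδ0.trans_le h3)]
  have hv := tlog_var hδ0 hδ1
  have h3 := hK _ (tlog_periodic δ) (ne_top_of_le_ne_top ENNReal.ofReal_ne_top hv) N θ
  have hE : 1 ≤ (N : ℝ) ^ (ε / 2) := one_le_rpow hN1 (by positivity)
  have h4 : log 2 - log δ ≤ (log 2 - log c + 4 / ε) * (N : ℝ) ^ (ε / 2) := by
    have h5 := log_le_rpow_div (x := (N : ℝ)) (by positivity) (half_pos hε)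
    rw [div_div_eq_mul_div, le_div_iff₀ hε] at h5
    have h6 : 2 * log N ≤ 4 / ε * (N : ℝ) ^ (ε / 2) := by
      rw [div_mul_eq_mul_div, le_div_iff₀ hε]
      linarith
    rw [hδ, log_div hc0.ne' (by positivity), log_pow]
    push_cast
    nlinarith
  have h5 : (eVariationOn (tlog δ) (Icc 0 1)).toReal ≤
      2 * ((log 2 - log c + 4 / ε) * (N : ℝ) ^ (ε / 2)) :=
    ENNReal.toReal_le_of_le_ofReal (by positivity)
      (hv.trans (ENNReal.ofReal_le_ofReal (by linarith)))
  have h6 : |N * ∫ x in (0 : ℝ)..1, tlog δ x| ≤ J * (N : ℝ) ^ ε := by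
    have h7 : √δ ≤ 1 / N := by
      rw [sqrt_le_left (by positivity), hδ, div_pow, one_pow]
      gcongr
    rw [abs_mul, Nat.abs_cast]
    calc _ ≤ N * (J * (1 / N)) := mul_le_mul_of_nonneg_left ((hJ' δ hδ0 hδ1).trans (by gcongr))
          (by positivity)
      _ = J * 1 := by field_simp
      _ ≤ _ := by
          gcongr
          exact one_le_rpow hN1 hε.le
  have h7 : |∑ n ∈ Finset.range N, tlog δ (θ + n * θ)| ≤
      (C * (2 * (log 2 - log c + 4 / ε)) + J) * (N : ℝ) ^ ε := by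
    have h8 : (N : ℝ) ^ ε = (N : ℝ) ^ (ε / 2) * (N : ℝ) ^ (ε / 2) := by
      rw [← rpow_add (by positivity), add_halves]
    have h9 : C * (eVariationOn (tlog δ) (Icc 0 1)).toReal * (N : ℝ) ^ (ε / 2) ≤
        C * (2 * (log 2 - log c + 4 / ε)) * (N : ℝ) ^ ε := by
      rw [h8]
      calc _ ≤ C * (2 * ((log 2 - log c + 4 / ε) * (N : ℝ) ^ (ε / 2))) * (N : ℝ) ^ (ε / 2) := by
            gcongr
        _ = _ := by ring
    linarith [abs_sub_abs_le_abs_sub (∑ n ∈ Finset.range N, tlog δ (θ + n * θ))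
      (N * ∫ x in (0 : ℝ)..1, tlog δ x)]
  rw [h2, exp_le_exp, exp_le_exp]
  exact abs_le.1 h7

end Vale.Agent.N021B
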