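import Vale.Agent.N021B.Arith
import Vale.Agent.P021Z.An.DetBound

/-! The bound for a minor at one infinite place. -/

namespace Vale.Agent.N021B

open Polynomial Vale.Agent.P021Z

theorem close_leaf (j K T : ℕ) (hj : j < K) (a : ℤ) (r : ℂ) (w ν ν₁ lam : ℝ) (hlam : 1 ≤ lam)
    (hx : ‖2 * Real.pi * Complex.I * a - r‖ ≤ Real.exp (-(ν₁ * w))) (hT : ν₁ * w ≤ lam * T)
    (hw : Real.log (K + 1) ≤ (ν₁ - ν) * w) (t : ℂ) (ht : ‖t‖ = Real.exp (-lam)) :
    ‖(C ((j : ℂ) * r) + logTrunc T).eval t -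
      (2 * Real.pi * Complex.I * ((j * a : ℤ) : ℂ) + Complex.log (1 + t))‖ ≤
      Real.exp (-(ν * w)) := by
  have ht2 : ‖t‖ ≤ 1 / 2 := by
    rw [ht]
    have h1 : Real.exp (-lam) ≤ Real.exp (-1) := Real.exp_le_exp.2 (by linarith)
    have h2 := Real.exp_neg_one_lt_d9
    linarith
  have h1 := Ar.norm_logTrunc_sub_le T t ht2
  have h2 : ‖t‖ ^ T ≤ Real.exp (-(ν₁ * w)) := by
    rw [ht, ← Real.exp_nat_mul]
    exact Real.exp_le_exp.2 (by linarith)
  have h3 : (C ((j : ℂ) * r) + logTrunc T).eval t -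
      (2 * Real.pi * Complex.I * ((j * a : ℤ) : ℂ) + Complex.log (1 + t)) =
      -((j : ℂ) * (2 * Real.pi * Complex.I * a - r)) +
        ((logTrunc T).eval t - Complex.log (1 + t)) := by
    simp only [eval_add, eval_C]
    push_cast
    ring
  have h4 : ‖-((j : ℂ) * (2 * Real.pi * Complex.I * a - r))‖ ≤ K * Real.exp (-(ν₁ * w)) := by
    rw [norm_neg, norm_mul, Complex.norm_natCast]
    have : (j : ℝ) ≤ K := by exact_mod_cast hj.le
    gcongr
  have h5 : (K + 1 : ℝ) ≤ Real.exp ((ν₁ - ν) * w) := by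
    rw [← Real.exp_log (show (0 : ℝ) < K + 1 by positivity)]
    exact Real.exp_le_exp.2 hw
  rw [h3]
  calc _ ≤ K * Real.exp (-(ν₁ * w)) + Real.exp (-(ν₁ * w)) :=
        (norm_add_le _ _).trans (add_le_add h4 (h1.trans h2))
    _ = (K + 1) * Real.exp (-(ν₁ * w)) := by ring
    _ ≤ Real.exp ((ν₁ - ν) * w) * Real.exp (-(ν₁ * w)) := by gcongr
    _ = Real.exp (-(ν * w)) := by
        rw [← Real.exp_add]
        congr 1
        ring

theorem prod_le_exp {ι : Type*} [Fintype ι] (f : ι → ℝ) (x : ℝ) (h0 : ∀ i, 0 ≤ f i)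
    (h : ∀ i, f i ≤ Real.exp x) : ∏ i, f i ≤ Real.exp (Fintype.card ι * x) := by
  rw [Real.exp_nat_mul, ← Finset.card_univ, ← Finset.prod_const]
  exact Finset.prod_le_prod (fun i _ => h0 i) fun i _ => h i

theorem prod_pow_le_exp {m : ℕ} (x w : Fin m → ℝ) (δ : Fin m → ℕ) (η : ℝ) (h0 : ∀ k, 0 ≤ x k)
    (h : ∀ k, x k ≤ Real.exp (η * w k)) :
    ∏ k, x k ^ δ k ≤ Real.exp (η * ∑ k, w k * δ k) := by
  rw [Finset.mul_sum, Real.exp_sum]
  refine Finset.prod_le_prod (fun k _ => pow_nonneg (h0 k) _) fun k _ => ?_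
  rw [show η * (w k * δ k) = δ k * (η * w k) by ring, Real.exp_nat_mul]
  exact pow_le_pow_left₀ (h0 k) (h k) _

set_option maxHeartbeats 600000 in
theorem place_bound {ι : Type*} [Fintype ι] [DecidableEq ι] [Nonempty ι] {m K : ℕ}
    (r : Fin m → ℂ) (w : Fin m → ℝ) (T : Fin m → ℕ) (a : ℤ) (a0 : ℕ) (ha : |(a : ℝ)| ≤ a0)
    (ν ν₁ θ η lam v0 w0 H A R : ℝ) (hν : 0 ≤ ν) (hθ : 0 < θ) (hθ1 : θ ≤ 1) (hη : 0 < η)
    (hv0 : 0 ≤ v0) (hA : 0 ≤ A) (hH : 0 ≤ H)
    (hRdef : R = 2 * (2 * Real.pi * (K * (a0 + 1)) + 1) * Real.exp 1) (hR : R ≤ η * w0)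
    (hlamv : lam ≤ η * v0) (hlam1 : 1 ≤ lam) (hw0 : ∀ k, 0 ≤ w k)
    (hw2 : ∀ k, Real.log (8 * R) ≤ η * w k) (j s h : ι → ℕ) (hj : ∀ i, j i < K)
    (α β : ι → Fin m → ℕ) (hβ : ∀ i, v0 * s i + ∑ k, w k / θ * β i k ≤ H)
    (hα : ∀ c, w0 * h c + ∑ k, w k * α c k ≤ H)
    (hcase : ν = 0 ∨ (0 ≤ ν₁ ∧
      (∀ k, ‖2 * Real.pi * Complex.I * a - r k‖ ≤ Real.exp (-(ν₁ * w k))) ∧
      (∀ k, ν₁ * w k ≤ lam * T k) ∧ (∀ k, Real.log (K + 1) ≤ (ν₁ - ν) * w k) ∧
      ∃ N : ℕ, (N : ℝ) ≤ η * Fintype.card ι ∧ ∀ F : Finset ((Fin m → ℕ) × ℕ),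
        (∀ x ∈ F, ν * (∑ k, w k * x.1 k) + 1 * x.2 < ν * A * H) → F.card ≤ N)) :
    ‖(Matrix.of fun i c => ent (fun k => C ((j i : ℂ) * r k) + logTrunc (T k)) (s i) (h c) (α c)
        (β i)).det‖ * ∏ i, ∏ k, max ‖r k‖ 1 ^ β i k ≤
      Real.exp (Fintype.card ι * (Real.log (Fintype.card ι) + ((m + 1 : ℕ) : ℝ) * Real.log 2 +
        3 * η * H) + ν * (∑ i, ∑ k, w k * β i k) - ν * A * H * (1 - η) * Fintype.card ι) *
        ∏ c, ∏ k, max ‖r k‖ 1 ^ α c k := by
  set M := Fintype.card ι with hM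
  have hM0 : (0 : ℝ) < M := by exact_mod_cast Fintype.card_pos
  have hK1 : (1 : ℝ) ≤ K := by
    have := hj (Classical.arbitrary ι)
    exact_mod_cast (show 1 ≤ K by omega)
  have ha0 : (0 : ℝ) ≤ a0 := by positivity
  have hpi := Real.pi_gt_three
  have he := Real.add_one_le_exp (1 : ℝ)
  have hKa : (K : ℝ) ≤ K * (a0 + 1) := by nlinarith
  have hKa' : (a0 : ℝ) ≤ K * (a0 + 1) := by nlinarith
  have hr0 : 0 ≤ 2 * Real.pi * (K * (a0 + 1)) := by positivity
  have hR0 : 2 * Real.pi * (K * (a0 + 1)) + 1 ≤ R := by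
    rw [hRdef]
    nlinarith
  have hR1 : 1 ≤ R := by linarith
  have h8R : ∀ k, 8 * R ≤ Real.exp (η * w k) := fun k => by
    rw [← Real.exp_log (show 0 < 8 * R by linarith)]
    exact Real.exp_le_exp.2 (hw2 k)
  have hcol : ∀ c, Real.exp (h c * R) * (8 * R) ^ (∑ k, α c k) ≤ Real.exp (η * H) := by
    intro c
    have h1 := prod_pow_le_exp (fun _ => 8 * R) w (α c) η (fun _ => by linarith) h8R
    rw [Finset.prod_pow_eq_pow_sum] at h1
    refine (mul_le_mul_of_nonneg_left h1 (Real.exp_pos _).le).trans ?_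
    rw [← Real.exp_add]
    refine Real.exp_le_exp.2 ?_
    have h2 : (0 : ℝ) ≤ h c := by positivity
    nlinarith [mul_le_mul_of_nonneg_left hR h2, mul_le_mul_of_nonneg_left (hα c) hη.le]
  have hb0 : ∀ i, 0 ≤ ∑ k, w k * β i k := fun i =>
    Finset.sum_nonneg fun k _ => mul_nonneg (hw0 k) (by positivity)
  have hβ' : ∀ i, v0 * s i + ∑ k, w k * β i k ≤ H := by
    intro i
    refine le_trans ?_ (hβ i)
    gcongr with k
    rw [le_div_iff₀ hθ]
    nlinarith [hw0 k]
  have hrow : ∀ i, Real.exp (lam * s i) ≤ Real.exp (η * H) := by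
    intro i
    refine Real.exp_le_exp.2 ?_
    have h2 : (0 : ℝ) ≤ s i := by positivity
    nlinarith [mul_le_mul_of_nonneg_right hlamv h2, mul_le_mul_of_nonneg_left (hβ' i) hη.le,
      mul_nonneg hη.le (hb0 i)]
  have hfac : (M.factorial : ℝ) ≤ Real.exp (M * Real.log M) := by
    rw [Real.exp_nat_mul, Real.exp_log hM0]
    exact_mod_cast Nat.factorial_le_pow M
  have hlog2 : 0 ≤ ((m + 1 : ℕ) : ℝ) * Real.log 2 := by
    have := Real.log_nonneg (show (1 : ℝ) ≤ 2 by norm_num)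
    positivity
  rcases hcase with h0 | ⟨hν₁, happ, hT, hw3, N, hN, hF⟩
  · refine (triv_bound r T K j s h hj α β).trans (mul_le_mul_of_nonneg_right ?_ (by positivity))
    have h1 : ∏ i, (2 : ℝ) ^ s i ≤ Real.exp (M * (η * H)) := by
      refine prod_le_exp _ _ (fun _ => by positivity) fun i => le_trans ?_ (hrow i)
      rw [mul_comm, Real.exp_nat_mul]
      exact pow_le_pow_left₀ (by norm_num) (by linarith [Real.add_one_le_exp lam]) _
    have h2 : ∏ c, (2 : ℝ) ^ h c * (2 * (K + 2 : ℝ)) ^ (∑ k, α c k) ≤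
        Real.exp (M * (η * H)) := by
      refine prod_le_exp _ _ (fun _ => by positivity) fun c => le_trans ?_ (hcol c)
      rw [Real.exp_nat_mul]
      refine mul_le_mul (pow_le_pow_left₀ (by norm_num) (by linarith [Real.add_one_le_exp R]) _)
        (pow_le_pow_left₀ (by positivity) (by nlinarith) _) (by positivity) (by positivity)
    calc _ ≤ Real.exp (M * Real.log M) * (Real.exp (M * (η * H)) * Real.exp (M * (η * H))) := by
          gcongr
      _ ≤ _ := by
          rw [← Real.exp_add, ← Real.exp_add, h0]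
          refine Real.exp_le_exp.2 ?_
          nlinarith [mul_nonneg hM0.le hlog2, mul_nonneg hM0.le (mul_nonneg hη.le hH)]
  · have hup := An.det_bound (fun i k => C ((j i : ℂ) * r k) + logTrunc (T k))
      (fun i => (j i : ℤ) * a) s h α β w ν (Real.exp (-lam)) 1
      (2 * Real.pi * (K * (a0 + 1)) + 1) R (ν * A * H) N (Real.exp_pos _)
      (by
        have h1 : Real.exp (-lam) ≤ Real.exp (-1) := Real.exp_le_exp.2 (by linarith)
        have h2 := Real.exp_neg_one_lt_d9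
        linarith)
      (fun k => mul_nonneg hν (hw0 k)) (by norm_num) (by positivity) hR1 (by positivity)
      (fun i => by
        have h1 : (j i : ℝ) ≤ K := by exact_mod_cast (hj i).le
        have h2 : |(((j i : ℤ) * a : ℤ) : ℝ)| ≤ K * (a0 + 1) := by
          push_cast
          rw [abs_mul, Nat.abs_cast]
          gcongr
          linarith
        gcongr)
      hRdef.ge
      (fun i k t ht => close_leaf (j i) K (T k) (hj i) a (r k) (w k) ν ν₁ lam hlam1 (happ k) (hT k)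
        (hw3 k) t ht) hF
    have h1 : ∏ i, ∏ k, max ‖r k‖ 1 ^ β i k ≤ Real.exp (M * (η * H)) := by
      refine prod_le_exp _ _ (fun _ => by positivity) fun i => ?_
      refine (prod_pow_le_exp _ w (β i) η (fun _ => by positivity) fun k =>
        le_trans (max_le ?_ (by linarith)) (h8R k)).trans (Real.exp_le_exp.2 ?_)
      · have h2 := norm_sub_norm_le (r k) (2 * Real.pi * Complex.I * a)
        have h3 : Real.exp (-(ν₁ * w k)) ≤ 1 := by
          rw [Real.exp_le_one_iff]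
          linarith [mul_nonneg hν₁ (hw0 k)]
        have h4 : ‖2 * Real.pi * Complex.I * a‖ = 2 * Real.pi * |(a : ℝ)| := by
          simp [abs_of_pos Real.pi_pos]
        have h5 := happ k
        rw [norm_sub_rev] at h5
        nlinarith
      · have : 0 ≤ v0 * s i := by positivity
        exact mul_le_mul_of_nonneg_left (by linarith [hβ' i]) hη.le
    have h2 : ∏ c, Real.exp (h c * R) * (8 * R) ^ (∑ k, α c k) ≤ Real.exp (M * (η * H)) :=
      prod_le_exp _ _ (fun _ => by positivity) hcol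
    have h3 : ∏ i, (Real.exp (-lam) ^ s i)⁻¹ * Real.exp (ν * ∑ k, w k * β i k) ≤
        Real.exp (M * (η * H)) * Real.exp (ν * ∑ i, ∑ k, w k * β i k) := by
      rw [Finset.prod_mul_distrib, ← Real.exp_sum, ← Finset.mul_sum]
      refine mul_le_mul_of_nonneg_right (prod_le_exp _ _ (fun _ => by positivity) fun i => ?_)
        (Real.exp_pos _).le
      rw [← Real.exp_nat_mul, ← Real.exp_neg, show -((s i : ℝ) * -lam) = lam * s i by ring]
      exact hrow i
    have h4 : (2 : ℝ) ^ ((m + 1) * M) = Real.exp (M * (((m + 1 : ℕ) : ℝ) * Real.log 2)) := by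
      rw [Real.exp_nat_mul, Real.exp_nat_mul, Real.exp_log (by norm_num), ← pow_mul]
    have h5 : 1 ≤ ∏ c, ∏ k, max ‖r k‖ 1 ^ α c k :=
      Finset.one_le_prod fun c _ => Finset.one_le_prod fun k _ => one_le_pow₀ (le_max_right _ _)
    refine le_trans ?_ (le_mul_of_one_le_right (Real.exp_pos _).le h5)
    rw [h4, ← hM] at hup
    simp only [ent]
    generalize ‖Matrix.det (R := ℂ) (n := ι) _‖ = Dn at hup ⊢
    calc _ ≤ (Real.exp (M * Real.log M) * Real.exp (M * (((m + 1 : ℕ) : ℝ) * Real.log 2)) *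
          Real.exp (M * (η * H)) * (Real.exp (M * (η * H)) *
            Real.exp (ν * ∑ i, ∑ k, w k * β i k)) * Real.exp (-(ν * A * H * ((M : ℝ) - N)))) *
          Real.exp (M * (η * H)) := by
          refine mul_le_mul (hup.trans ?_) h1 (by positivity) (by positivity)
          gcongr
      _ ≤ _ := by
          simp only [← Real.exp_add]
          refine Real.exp_le_exp.2 ?_
          have : 0 ≤ ν * A * H := by positivity
          nlinarith [mul_le_mul_of_nonneg_left hN this]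

end Vale.Agent.N021B
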