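import Vale.Agent.N021B.Sharp

/-! The irrationality exponent of `π` and of its images under rational Möbius maps. -/

namespace Vale.Agent.N021B

open Height Filter

theorem height_rat_le (r : ℚ) (h : |Real.pi - r| < 1) : mulHeight₁ r ≤ 5 * r.den := by
  have h1 : |(r : ℝ)| ≤ 5 := by
    rw [abs_lt] at h
    rw [abs_le]
    constructor <;> linarith [h.1, h.2, Real.pi_gt_three, Real.pi_lt_four]
  have hd : (0 : ℝ) < r.den := by exact_mod_cast r.den_pos
  rw [Rat.cast_def, abs_div, abs_of_pos hd, div_le_iff₀ hd] at h1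
  rw [Rat.mulHeight₁_eq_max, Nat.cast_max, Nat.cast_natAbs, Int.cast_abs]
  exact max_le h1 (by linarith)

theorem pi_rat {ε : ℝ} (hε : 0 < ε) :
    ∃ c : ℝ, 0 < c ∧ ∀ r : ℚ, c ≤ (r.den : ℝ) ^ (2 + ε) * |Real.pi - r| := by
  obtain ⟨κ, hκ, h⟩ := lower_real (Rat.castHom ℝ) hε
  refine ⟨min 1 (κ / 5 ^ (2 + ε)), lt_min one_pos (by positivity), fun r => ?_⟩
  have hd : (1 : ℝ) ≤ r.den := by exact_mod_cast r.den_pos
  rcases le_or_gt 1 |Real.pi - r| with h1 | h1
  · exact (min_le_left _ _).trans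
      (one_le_mul_of_one_le_of_one_le (Real.one_le_rpow hd (by linarith)) h1)
  · refine (min_le_right _ _).trans ?_
    rw [div_le_iff₀ (by positivity), mul_right_comm, ← Real.mul_rpow (by positivity) (by norm_num),
      mul_comm _ (5 : ℝ)]
    refine (h r).trans (mul_le_mul (Real.rpow_le_rpow (mulHeight₁_nonneg _) (height_rat_le r h1)
      (by linarith)) (min_le_right _ _) (by positivity) (by positivity))

theorem isGreatest_pi : IsGreatest {ν : ℝ | 0 < ν ∧ {r : ℚ | 2 ≤ r.den ∧ 0 < |Real.pi - r| ∧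
    |Real.pi - r| < (r.den : ℝ) ^ (-ν)}.Infinite} 2 := by
  refine ⟨⟨two_pos, ?_⟩, fun ν hν => not_lt.1 fun h2 => hν.2 ?_⟩
  · have h1 := Real.infinite_rat_abs_sub_lt_one_div_den_sq_of_irrational irrational_pi
    refine (h1.sdiff (NumberField.finite_setOfPred_mulHeight₁_le ℚ 5)).mono fun r hr => ?_
    have h2 : |Real.pi - r| < 1 / (r.den : ℝ) ^ 2 := hr.1
    refine ⟨not_lt.1 fun h3 => hr.2 ?_, abs_pos.2 (sub_ne_zero.2 (irrational_pi.ne_rat r)), ?_⟩
    · have h4 : r.den = 1 := by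
        have := r.den_pos
        omega
      have h5 := height_rat_le r (by simpa [h4] using h2)
      simpa [h4] using h5
    · rwa [Real.rpow_neg (by positivity), Real.rpow_two, ← one_div]
  · set ε := (ν - 2) / 2 with hε
    have hε0 : 0 < ε := by linarith
    obtain ⟨κ, hκ, h⟩ := pi_rat hε0
    refine (NumberField.finite_setOfPred_mulHeight₁_le ℚ (5 * κ⁻¹ ^ ε⁻¹)).subset fun r hr => ?_
    have hd : (1 : ℝ) ≤ r.den := by exact_mod_cast r.den_pos
    have hH : (0 : ℝ) < r.den := by linarith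
    have h1 : κ ≤ (r.den : ℝ) ^ (2 + ε) * (r.den : ℝ) ^ (-ν) :=
      (h r).trans (mul_le_mul_of_nonneg_left hr.2.2.le (by positivity))
    rw [← Real.rpow_add hH, show 2 + ε + -ν = -ε by linarith, Real.rpow_neg hH.le,
      le_inv_comm₀ hκ (by positivity)] at h1
    have h3 := Real.rpow_le_rpow (by positivity) h1 (inv_pos.2 hε0).le
    rw [← Real.rpow_mul hH.le, mul_inv_cancel₀ hε0.ne', Real.rpow_one] at h3
    have h4 := height_rat_le r (hr.2.2.trans_le
      (Real.rpow_le_one_of_one_le_of_nonpos hd (by linarith)))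
    exact h4.trans (by linarith)

/-- The multiples of `θ` are not much closer to the integers than Dirichlet's theorem gives. -/
def RothType (θ : ℝ) : Prop :=
  ∀ ε : ℝ, 0 < ε → ∃ c : ℝ, 0 < c ∧ ∀ n k : ℤ, n ≠ 0 → c ≤ |(n : ℝ)| ^ (1 + ε) * |n * θ - k|

theorem roth_pi : RothType Real.pi := by
  intro ε hε
  obtain ⟨c, hc, h⟩ := pi_rat hε
  refine ⟨c, hc, fun n k hn => (h (Rat.divInt k n)).trans ?_⟩
  have hn' : (n : ℝ) ≠ 0 := by exact_mod_cast hn
  have h1 : (((Rat.divInt k n).den : ℕ) : ℝ) ≤ |(n : ℝ)| := by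
    have := Int.le_abs_of_dvd hn (Rat.den_dvd k n)
    exact_mod_cast this
  have h2 : |n * Real.pi - k| = |(n : ℝ)| * |Real.pi - (Rat.divInt k n : ℚ)| := by
    rw [← abs_mul, Rat.cast_divInt]
    congr 1
    field_simp
  rw [h2, ← mul_assoc, ← Real.rpow_add_one (abs_pos.2 hn').ne', show 1 + ε + 1 = 2 + ε by ring]
  gcongr

theorem roth_moebius {x : ℝ} (hx : RothType x) {a b c d : ℤ} (h : a * d ≠ b * c) :
    RothType ((a * x + b) / (c * x + d)) := by
  have hx0 : ∀ n k : ℤ, n ≠ 0 → n * x - k ≠ 0 := fun n k hn h0 => by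
    obtain ⟨c, hc, h1⟩ := hx 1 one_pos
    have := h1 n k hn
    rw [h0, abs_zero, mul_zero] at this
    linarith
  have hD : c * x + d ≠ 0 := by
    rcases eq_or_ne c 0 with rfl | hc
    · have : d ≠ 0 := fun h0 => h (by simp [h0])
      simpa using this
    · simpa using hx0 c (-d) hc
  set θ := (a * x + b) / (c * x + d) with hθ
  have hD0 : 0 < |c * x + d| := abs_pos.2 hD
  intro ε hε
  obtain ⟨κ, hκ, hκ'⟩ := hx ε hε
  set B : ℝ := |(a : ℝ)| + (|θ| + 1) * |(c : ℝ)| + 1 with hB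
  have hB0 : 0 < B := by positivity
  refine ⟨min 1 (min 1 (κ / B ^ (1 + ε)) / |c * x + d|), by positivity, fun n k hn => ?_⟩
  have hn1 : (1 : ℝ) ≤ |(n : ℝ)| := by exact_mod_cast Int.one_le_abs hn
  have hn2 : 1 ≤ |(n : ℝ)| ^ (1 + ε) := Real.one_le_rpow hn1 (by linarith)
  rcases le_or_gt 1 |n * θ - k| with h1 | h1
  · exact (min_le_left _ _).trans (one_le_mul_of_one_le_of_one_le hn2 h1)
  refine (min_le_right _ _).trans ?_
  have h2 : |n * θ - k| * |c * x + d| = |((n * a - k * c : ℤ) : ℝ) * x - (k * d - n * b : ℤ)| := by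
    have e : θ * (c * x + d) = a * x + b := div_mul_cancel₀ _ hD
    rw [← abs_mul]
    congr 1
    push_cast
    linear_combination n * e
  rw [div_le_iff₀ hD0, mul_assoc, h2]
  rcases eq_or_ne (n * a - k * c) 0 with h3 | h3
  · have h4 : k * d - n * b ≠ 0 := fun h4 => mul_ne_zero hn (sub_ne_zero.2 h) (by
      linear_combination d * h3 + c * h4)
    have h5 : (1 : ℝ) ≤ |((k * d - n * b : ℤ) : ℝ)| := by exact_mod_cast Int.one_le_abs h4
    rw [h3, Int.cast_zero, zero_mul, zero_sub, abs_neg]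
    exact (min_le_left _ _).trans (one_le_mul_of_one_le_of_one_le hn2 h5)
  · refine (min_le_right _ _).trans ?_
    have h4 : |(k : ℝ)| ≤ (|θ| + 1) * |(n : ℝ)| := by
      have := abs_sub_abs_le_abs_sub (k : ℝ) (n * θ)
      rw [abs_sub_comm, abs_mul] at this
      linarith
    have h5 : |((n * a - k * c : ℤ) : ℝ)| ≤ |(n : ℝ)| * B := by
      push_cast
      refine (abs_sub _ _).trans ?_
      rw [abs_mul, abs_mul, hB]
      nlinarith [mul_le_mul_of_nonneg_right h4 (abs_nonneg (c : ℝ))]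
    rw [div_le_iff₀ (by positivity), mul_right_comm, ← Real.mul_rpow (by positivity) hB0.le]
    refine (hκ' _ (k * d - n * b) h3).trans ?_
    gcongr

theorem RothType.irrational {θ : ℝ} (h : RothType θ) : Irrational θ := by
  rintro ⟨r, rfl⟩
  obtain ⟨c, hc, h1⟩ := h 1 one_pos
  have h2 := h1 r.den r.num (by exact_mod_cast r.den_nz)
  have h3 : ((r.den : ℤ) : ℝ) * (r : ℝ) - r.num = 0 := by
    rw [sub_eq_zero]
    exact_mod_cast Rat.den_mul_eq_num r
  rw [h3, abs_zero, mul_zero] at h2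
  linarith

theorem exists_rat_den_ge {θ : ℝ} (h : Irrational θ) (N : ℕ) :
    ∃ r : ℚ, N ≤ r.den ∧ |θ - r| < 1 / (r.den : ℝ) ^ 2 := by
  by_contra hcon
  push Not at hcon
  refine Real.infinite_rat_abs_sub_lt_one_div_den_sq_of_irrational h
    ((NumberField.finite_setOfPred_mulHeight₁_le ℚ ((|θ| + 1) * N)).subset fun r hr => ?_)
  have h1 : |θ - r| < 1 / (r.den : ℝ) ^ 2 := hr
  have h2 : (r.den : ℝ) ≤ N := by exact_mod_cast (not_le.1 fun h3 => (hcon r h3).not_gt h1).le
  have hd : (1 : ℝ) ≤ r.den := by exact_mod_cast r.den_pos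
  have h3 : |(r : ℝ)| ≤ |θ| + 1 := by
    have h4 := abs_sub_abs_le_abs_sub (r : ℝ) θ
    have h5 : 1 / (r.den : ℝ) ^ 2 ≤ 1 := div_le_one_of_le₀ (one_le_pow₀ hd) (by positivity)
    rw [abs_sub_comm] at h4
    linarith
  rw [Rat.cast_def, abs_div, Nat.abs_cast, div_le_iff₀ (by linarith)] at h3
  rw [Set.mem_ofPred_eq, Rat.mulHeight₁_eq_max, Nat.cast_max, Nat.cast_natAbs, Int.cast_abs]
  have h0 := abs_nonneg θ
  exact max_le (h3.trans (by gcongr)) (by nlinarith)

theorem RothType.liouvilleWith_iff {θ : ℝ} (h : RothType θ) (p : ℝ) :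
    LiouvilleWith p θ ↔ p ≤ 2 := by
  refine ⟨fun hp => not_lt.1 fun h2 => ?_, fun hp => LiouvilleWith.mono ⟨1, ?_⟩ hp⟩
  · set ε := (p - 2) / 3 with hε
    have hε0 : 0 < ε := by linarith
    obtain ⟨c, hc, h1⟩ := h ε hε0
    have h3 := (tendsto_rpow_neg_atTop hε0).comp tendsto_natCast_atTop_atTop
    obtain ⟨n, ⟨m, -, h4⟩, h5, h6⟩ := ((hp.frequently_lt_rpow_neg
      (show 2 + 2 * ε < p by linarith)).and_eventually
      ((h3.eventually (gt_mem_nhds hc)).and (eventually_gt_atTop 0))).exists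
    have hn : (0 : ℝ) < n := by exact_mod_cast h6
    have h7 := h1 n m (by exact_mod_cast h6.ne')
    have h8 : |((n : ℤ) : ℝ) * θ - m| = n * |θ - m / n| := by
      rw [← abs_of_pos hn, ← abs_mul, abs_of_pos hn]
      congr 1
      push_cast
      field_simp
    rw [h8, Int.cast_natCast, Nat.abs_cast, ← mul_assoc, ← Real.rpow_add_one hn.ne'] at h7
    have h9 := h7.trans (mul_le_mul_of_nonneg_left h4.le (by positivity))
    rw [← Real.rpow_add hn, show 1 + ε + 1 + -(2 + 2 * ε) = -ε by ring] at h9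
    exact h5.not_ge h9
  · refine frequently_atTop.2 fun N => ?_
    obtain ⟨r, h1, h2⟩ := exists_rat_den_ge h.irrational N
    refine ⟨r.den, h1, r.num, ?_, ?_⟩
    · rw [← Rat.cast_def]
      exact h.irrational.ne_rat r
    · rwa [← Rat.cast_def, Real.rpow_two]

end Vale.Agent.N021B
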