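import Vale.Agent.N021B.Roth

/-! Series with small denominators. -/

namespace Vale.Agent.N021B

open Filter Real Topology

theorem abs_sin_sub (y : ℝ) (k : ℤ) : |sin (π * y)| = |sin (π * (y - k))| := by
  rw [mul_sub, mul_comm π (k : ℝ), sin_sub_int_mul_pi, abs_mul, abs_zpow, abs_neg, abs_one,
    one_zpow, one_mul]

theorem le_abs_sin (y : ℝ) : |y - round y| ≤ |sin (π * y)| := by
  have h1 := abs_sub_round y
  have h2 := mul_abs_le_abs_sin (x := π * (y - round y)) (by
    rw [abs_mul, abs_of_pos pi_pos]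
    nlinarith [pi_pos])
  rw [abs_mul, abs_of_pos pi_pos, ← mul_assoc, div_mul_cancel₀ _ pi_ne_zero] at h2
  rw [abs_sin_sub y (round y)]
  linarith [abs_nonneg (y - round y)]

theorem sin_pos {θ : ℝ} (h : Irrational θ) {n : ℕ} (hn : n ≠ 0) : 0 < |sin (π * n * θ)| := by
  rw [mul_assoc]
  exact (abs_pos.2 (sub_ne_zero.2 ((h.natCast_mul hn).ne_int _))).trans_le (le_abs_sin _)

theorem sin_two (θ : ℝ) (n : ℕ) :
    |sin (π * n * (2 * θ))| = 2 * |sin (π * n * θ)| * |cos (π * n * θ)| := by
  rw [show π * n * (2 * θ) = 2 * (π * n * θ) by ring, sin_two_mul, abs_mul, abs_mul, abs_two]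

theorem cos_pos {θ : ℝ} (h : Irrational θ) {n : ℕ} (hn : n ≠ 0) : 0 < |cos (π * n * θ)| := by
  have h1 := sin_pos (θ := 2 * θ) (by simpa using h.natCast_mul two_ne_zero) hn
  rw [sin_two] at h1
  exact pos_of_mul_pos_right h1 (by positivity)

theorem sum_sin_le {θ : ℝ} (hθ : RothType θ) {v ε : ℝ} (hv : 1 < v) (hε : 0 < ε) :
    ∃ C : ℝ, ∀ N : ℕ, ∑ n ∈ Finset.Icc 1 N, |sin (π * n * θ)| ^ (-v) ≤
      C * (N : ℝ) ^ ((1 + ε) * v) := by
  classical
  obtain ⟨c, hc, h⟩ := hθ ε hε
  have hs := summable_abs_int_rpow hv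
  refine ⟨(c / 2) ^ (-v) * ∑' j : ℤ, |(j : ℝ)| ^ (-v), fun N => ?_⟩
  rcases Nat.eq_zero_or_pos N with rfl | hN
  · have : 0 ≤ ∑' j : ℤ, |(j : ℝ)| ^ (-v) := tsum_nonneg fun _ => by positivity
    simp only [Finset.Icc_eq_empty_of_lt one_pos, Finset.sum_empty]
    positivity
  have hN0 : (0 : ℝ) < N := by exact_mod_cast hN
  set δ := c / (N : ℝ) ^ (1 + ε) with hδ
  have hδ0 : 0 < δ := by positivity
  have h1 : ∀ n k : ℤ, n ≠ 0 → |(n : ℝ)| ≤ N → δ ≤ |n * θ - k| := fun n k hn hnN => by
    rw [hδ, div_le_iff₀ (by positivity), mul_comm]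
    refine (h n k hn).trans ?_
    gcongr
  set y : ℕ → ℝ := fun n => n * θ - round (n * θ) with hy
  set j : ℕ → ℤ := fun n => ⌊y n / δ⌋ with hj
  have hinj : Set.InjOn j (Finset.Icc 1 N) := by
    intro n hn m hm hnm
    by_contra hne
    have h2 := Int.abs_sub_lt_one_of_floor_eq_floor hnm
    rw [← sub_div, abs_div, abs_of_pos hδ0, div_lt_one hδ0] at h2
    rw [Finset.coe_Icc, Set.mem_Icc] at hn hm
    have h3 := h1 (n - m) (round (n * θ) - round (m * θ)) (by omega) (by
      have e1 : (1 : ℝ) ≤ n := by exact_mod_cast hn.1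
      have e2 : (n : ℝ) ≤ N := by exact_mod_cast hn.2
      have e3 : (1 : ℝ) ≤ m := by exact_mod_cast hm.1
      have e4 : (m : ℝ) ≤ N := by exact_mod_cast hm.2
      push_cast
      rw [abs_le]
      constructor <;> linarith)
    refine h2.not_ge (h3.trans_eq ?_)
    congr 1
    simp only [hy]
    push_cast
    ring
  have h2 : ∀ n ∈ Finset.Icc 1 N, |sin (π * n * θ)| ^ (-v) ≤
      (δ / 2) ^ (-v) * |(j n : ℝ)| ^ (-v) := by
    intro n hn
    rw [Finset.mem_Icc] at hn
    have h3 : δ ≤ |y n| := by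
      simpa using h1 n (round (n * θ)) (by omega) (by simpa using hn.2)
    have h4 : 1 ≤ |y n / δ| := by rwa [abs_div, abs_of_pos hδ0, one_le_div hδ0]
    have h5 := Int.floor_le (y n / δ)
    have h6 := Int.lt_floor_add_one (y n / δ)
    have h7 : 1 ≤ |(j n : ℝ)| ∧ |(j n : ℝ)| ≤ 2 * |y n / δ| := by
      rcases le_abs.1 h4 with h8 | h8
      · have h9 : (1 : ℝ) ≤ j n := by exact_mod_cast Int.le_floor.2 (by simpa using h8)
        rw [abs_of_pos (by linarith), abs_of_pos (by linarith)]
        exact ⟨h9, by linarith⟩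
      · rw [abs_of_neg (by linarith), abs_of_neg (by linarith)]
        exact ⟨by linarith, by linarith⟩
    rw [← mul_rpow (by positivity) (abs_nonneg _)]
    refine rpow_le_rpow_of_nonpos (mul_pos (by positivity) (by linarith)) ?_ (by linarith)
    rw [mul_assoc π]
    refine le_trans ?_ (le_abs_sin _)
    have h8 := h7.2
    rw [abs_div, abs_of_pos hδ0, ← mul_div_assoc, le_div_iff₀ hδ0] at h8
    linarith
  refine (Finset.sum_le_sum h2).trans ?_
  rw [← Finset.mul_sum, ← Finset.sum_image (f := fun i : ℤ => |(i : ℝ)| ^ (-v)) hinj,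
    mul_right_comm]
  refine mul_le_mul (le_of_eq ?_) (hs.sum_le_tsum _ fun _ _ => by positivity)
    (Finset.sum_nonneg fun _ _ => by positivity) (by positivity)
  rw [hδ, div_right_comm, div_rpow (by positivity) (by positivity), ← rpow_mul hN0.le,
    div_eq_mul_inv, ← rpow_neg hN0.le, mul_neg, neg_neg]

theorem summable_sin {θ : ℝ} (hθ : RothType θ) {u v : ℝ} (hv : 1 < v) (hu : v < u) :
    Summable fun n : ℕ => |sin (π * n * θ)| ^ (-v) / (n : ℝ) ^ u := by
  have hv0 : 0 < v := by linarith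
  have h0 : 1 < u / v := (one_lt_div hv0).2 hu
  obtain ⟨C, hC⟩ := sum_sin_le hθ hv (ε := (u / v - 1) / 2) (by linarith)
  have h1 : LSeriesSummable (fun n => ((|sin (π * n * θ)| ^ (-v) : ℝ) : ℂ)) u := by
    refine LSeriesSummable_of_sum_norm_bigO_and_nonneg (r := (1 + (u / v - 1) / 2) * v)
      (Asymptotics.IsBigO.of_bound C (Eventually.of_forall fun N => ?_)) (fun _ => by positivity)
      (mul_nonneg (by linarith) hv0.le) ?_
    · rw [norm_of_nonneg (Finset.sum_nonneg fun _ _ => by positivity),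
        norm_of_nonneg (by positivity)]
      exact hC N
    · rw [Complex.ofReal_re, ← lt_div_iff₀ hv0]
      linarith
  refine (summable_norm_iff.2 h1).congr fun n => ?_
  rw [LSeries.norm_term_eq]
  split_ifs with h
  · rw [h, Nat.cast_zero, zero_rpow (x := u) (by linarith), div_zero]
  · rw [Complex.norm_real, norm_of_nonneg (by positivity), Complex.ofReal_re]

theorem rpow_le_of_mem {c t : ℝ} (hc : 0 < c) (h1 : c ≤ t) (h2 : t ≤ 1) (v : ℝ) :
    t ^ v ≤ c ^ (-|v|) := by
  rcases le_total 0 v with h | h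
  · exact (rpow_le_one (by linarith) h2 h).trans
      (one_le_rpow_of_pos_of_le_one_of_nonpos hc (by linarith) (by simp))
  · rw [abs_of_nonpos h, neg_neg]
    exact rpow_le_rpow_of_nonpos hc h1 h

theorem exists_inhom {θ : ℝ} (h : Irrational θ) (s : ℝ) (N : ℕ) :
    ∃ n : ℕ, N ≤ n ∧ ∃ k : ℤ, |n * θ - k - s| ≤ 5 / n := by
  obtain ⟨r, hr1, hr2⟩ := exists_rat_den_ge h N
  obtain ⟨x, y, hxy⟩ := r.isCoprime_num_den
  have hq : (0 : ℤ) < r.den := by exact_mod_cast r.den_pos
  have hq' : (0 : ℝ) < r.den := by exact_mod_cast r.den_pos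
  set t := round (r.den * s) with ht
  have h1 := Int.emod_nonneg (t * x) hq.ne'
  have h2 := Int.emod_lt_of_pos (t * x) hq
  have h3 := Int.emod_add_mul_ediv (t * x) r.den
  obtain ⟨n, hn⟩ := Int.eq_ofNat_of_zero_le (show 0 ≤ t * x % r.den + r.den by omega)
  have h4 : (n : ℤ) * r.num - t = r.den * (-t * y + r.num * (1 - t * x / r.den)) := by
    rw [← hn]
    linear_combination r.num * h3 + t * hxy
  refine ⟨n, by omega, -t * y + r.num * (1 - t * x / r.den), ?_⟩
  set k := -t * y + r.num * (1 - t * x / r.den)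
  have h5 : (n : ℝ) * r.num - t = r.den * k := by exact_mod_cast h4
  have h6 : (n : ℝ) ≤ 2 * r.den := by exact_mod_cast (show n ≤ 2 * r.den by omega)
  have h7 : (0 : ℝ) < n := by exact_mod_cast (show 0 < n by omega)
  have h8 : n * θ - k - s = n * (θ - r) - (r.den * s - t) / r.den := by
    rw [Rat.cast_def]
    field_simp
    linear_combination h5
  have h9 := abs_sub_round (r.den * s)
  rw [h8]
  refine (abs_sub _ _).trans ?_
  rw [abs_mul, abs_div, abs_of_pos h7, abs_of_pos hq']
  calc _ ≤ 2 * r.den * (1 / (r.den : ℝ) ^ 2) + 1 / 2 / r.den := by gcongr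
    _ = 5 / (2 * r.den) := by
        field_simp
        norm_num
    _ ≤ 5 / n := by gcongr

theorem not_summable_aux (S C : ℕ → ℝ) (hS : ∀ n, n ≠ 0 → 0 < S n) (hC : ∀ n, 0 ≤ C n)
    (hSC : ∀ n, S n ^ 2 + C n ^ 2 = 1) (h : ∀ N : ℕ, ∃ n, N ≤ n ∧ S n ≤ 16 / n) {u v : ℝ}
    (hv : 0 ≤ v) (huv : u ≤ v) (w : ℝ) :
    ¬Summable fun n : ℕ => 1 / ((n : ℝ) ^ u * S n ^ v * C n ^ w) := by
  intro hs
  have h1 := hs.tendsto_atTop_zero.eventually
    (gt_mem_nhds (show (0 : ℝ) < 1 / (16 ^ v * (1 / 2) ^ (-|w|)) by positivity))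
  obtain ⟨N, hN⟩ := eventually_atTop.1 h1
  obtain ⟨n, hn, h2⟩ := h (max N 32)
  have h3 : (32 : ℝ) ≤ n := by exact_mod_cast (le_max_right _ _).trans hn
  have hn0 : (0 : ℝ) < n := by linarith
  have h4 := hS n (by
    rintro rfl
    simp at hn0)
  have h5 : S n ≤ 1 / 2 := h2.trans (by
    rw [div_le_iff₀ hn0]
    linarith)
  have h6 : 1 / 2 ≤ C n := by nlinarith [hSC n, hC n]
  have h7 : C n ≤ 1 := by nlinarith [hSC n, hC n]
  have h8 : 0 < C n := by linarith
  refine (hN n ((le_max_left _ _).trans hn)).not_ge (one_div_le_one_div_of_le (by positivity) ?_)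
  refine mul_le_mul ?_ (rpow_le_of_mem (by norm_num) h6 h7 w) (by positivity) (by positivity)
  calc (n : ℝ) ^ u * S n ^ v ≤ (n : ℝ) ^ v * (16 / n) ^ v :=
        mul_le_mul (rpow_le_rpow_of_exponent_le (by linarith) huv) (rpow_le_rpow h4.le h2 hv)
          (by positivity) (by positivity)
    _ = 16 ^ v := by rw [← mul_rpow hn0.le (by positivity), mul_div_cancel₀ _ hn0.ne']

theorem summable_iff {θ : ℝ} (hθ : RothType θ) (u v w : ℝ) :
    (Summable fun n : ℕ =>
      1 / ((n : ℝ) ^ u * |sin (π * n * θ)| ^ v * |cos (π * n * θ)| ^ w)) ↔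
      1 < u ∧ v < u ∧ w < u := by
  have hi := hθ.irrational
  have hθ2 : RothType (2 * θ) := by
    simpa using roth_moebius hθ (a := 2) (b := 0) (c := 0) (d := 1) (by norm_num)
  constructor
  · intro hs
    have hu : 1 < u := by
      refine not_le.1 fun hu => ?_
      set c := |sin (π * (1 : ℕ) * (2 * θ))| / 4 with hc
      have hc0 : 0 < c := div_pos (sin_pos hθ2.irrational one_ne_zero) (by norm_num)
      set B := c ^ (-|v|) * c ^ (-|w|) with hB
      have hB0 : 0 < B := by positivity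
      have h1 : ∀ n m : ℕ, m ≠ 0 → m ≤ n → 2 * c ≤ |sin (π * m * (2 * θ))| → B⁻¹ * (1 / n) ≤
          1 / ((m : ℝ) ^ u * |sin (π * m * θ)| ^ v * |cos (π * m * θ)| ^ w) := by
        intro n m hm hmn h2
        rw [sin_two] at h2
        have h3 := abs_sin_le_one (π * m * θ)
        have h4 := abs_cos_le_one (π * m * θ)
        have h5 := sin_pos hi hm
        have h6 := cos_pos hi hm
        have h7 : (1 : ℝ) ≤ m := by exact_mod_cast Nat.one_le_iff_ne_zero.2 hm
        have h8 : (m : ℝ) ≤ n := by exact_mod_cast hmn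
        rw [← one_div, one_div_mul_one_div, mul_comm B, hB, ← mul_assoc]
        refine one_div_le_one_div_of_le (by positivity) (mul_le_mul (mul_le_mul
          (((rpow_le_rpow_of_exponent_le h7 hu).trans_eq (rpow_one _)).trans h8)
          (rpow_le_of_mem hc0 (by nlinarith) h3 v) (by positivity) (by positivity))
          (rpow_le_of_mem hc0 (by nlinarith) h4 w) (by positivity) (by positivity))
      refine not_summable_one_div_natCast ((summable_nat_add_iff 2).1
        ((summable_mul_left_iff (inv_ne_zero hB0.ne')).1 (Summable.of_nonneg_of_le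
          (fun n => by positivity) (fun n => ?_)
          (((summable_nat_add_iff 1).2 hs).add ((summable_nat_add_iff 2).2 hs)))))
      have h2 : 4 * c ≤ |sin (π * (n + 1 : ℕ) * (2 * θ))| + |sin (π * (n + 2 : ℕ) * (2 * θ))| := by
        have e : π * (1 : ℕ) * (2 * θ) = π * (n + 2 : ℕ) * (2 * θ) - π * (n + 1 : ℕ) * (2 * θ) := by
          push_cast
          ring
        rw [hc, mul_div_cancel₀ _ (by norm_num), e, sin_sub]
        refine (abs_sub _ _).trans (le_of_le_of_eq ?_ (add_comm _ _))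
        rw [abs_mul, abs_mul]
        exact add_le_add (mul_le_of_le_one_right (abs_nonneg _) (abs_cos_le_one _))
          (mul_le_of_le_one_left (abs_nonneg _) (abs_cos_le_one _))
      rcases le_total (2 * c) |sin (π * (n + 1 : ℕ) * (2 * θ))| with h3 | h3
      · exact (h1 (n + 2) (n + 1) (by omega) (by omega) h3).trans
          (le_add_of_nonneg_right (by positivity))
      · exact (h1 (n + 2) (n + 2) (by omega) le_rfl (by linarith)).trans
          (le_add_of_nonneg_left (by positivity))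
    have h16 : ∀ (n : ℕ) (y : ℝ), |y| ≤ 5 / n → |sin (π * y)| ≤ 16 / n := fun n y hy => by
      refine abs_sin_le_abs.trans ?_
      rw [abs_mul, abs_of_pos pi_pos]
      calc π * |y| ≤ 3.15 * (5 / n) := by
            gcongr
            exact pi_lt_d2.le
        _ = 15.75 / n := by ring
        _ ≤ 16 / n := by
            gcongr
            norm_num
    refine ⟨hu, not_le.1 fun h => ?_, not_le.1 fun h => ?_⟩
    · refine not_summable_aux _ _ (fun n => sin_pos hi) (fun n => abs_nonneg _)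
        (fun n => by simp) (fun N => ?_) (by linarith) h w hs
      obtain ⟨n, h1, k, h2⟩ := exists_inhom hi 0 N
      refine ⟨n, h1, ?_⟩
      rw [mul_assoc, abs_sin_sub _ k]
      exact h16 n _ (by simpa using h2)
    · refine not_summable_aux (fun n => |cos (π * n * θ)|) (fun n => |sin (π * n * θ)|)
        (fun n => cos_pos hi) (fun n => abs_nonneg _) (fun n => by simp) (fun N => ?_)
        (by linarith) h v (hs.congr fun n => by rw [mul_right_comm])
      obtain ⟨n, h1, k, h2⟩ := exists_inhom hi (1 / 2) N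
      refine ⟨n, h1, ?_⟩
      have h3 := h16 n _ h2
      rw [sub_right_comm, ← abs_sin_sub, mul_sub, show π * (1 / 2) = π / 2 by ring,
        sin_sub_pi_div_two, abs_neg, ← mul_assoc] at h3
      exact h3
  · rintro ⟨h1, h2, h3⟩
    obtain ⟨z, hz1, hz2⟩ := exists_between (max_lt h1 (max_lt h2 h3))
    simp only [max_lt_iff] at hz1
    refine Summable.of_nonneg_of_le (fun n => by positivity) (fun n => ?_)
      ((summable_sin hθ2 hz1.1 hz2).mul_left (2 ^ z))
    rcases eq_or_ne n 0 with rfl | hn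
    · simp [zero_rpow (show u ≠ 0 by linarith)]
    have h4 := sin_pos hi hn
    have h5 := cos_pos hi hn
    have h6 : (0 : ℝ) < n := by exact_mod_cast Nat.pos_of_ne_zero hn
    calc _ ≤ 1 / ((n : ℝ) ^ u * |sin (π * n * θ)| ^ z * |cos (π * n * θ)| ^ z) :=
          one_div_le_one_div_of_le (by positivity) (mul_le_mul (mul_le_mul_of_nonneg_left
            (rpow_le_rpow_of_exponent_ge h4 (abs_sin_le_one _) hz1.2.1.le) (by positivity))
            (rpow_le_rpow_of_exponent_ge h5 (abs_cos_le_one _) hz1.2.2.le) (by positivity)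
            (by positivity))
      _ = _ := by
          rw [sin_two, rpow_neg (by positivity), mul_rpow (by positivity) h5.le,
            mul_rpow (by norm_num) h4.le]
          field_simp

theorem roth_inv_pi : RothType π⁻¹ := by
  simpa using roth_moebius roth_pi (a := 0) (b := 1) (c := 1) (d := 0) (by norm_num)

theorem flint_hills : Summable fun n : ℕ => 1 / ((n : ℝ) ^ 3 * sin n ^ 2) := by
  refine ((summable_iff roth_inv_pi 3 2 0).2 (by norm_num)).congr fun n => ?_
  rw [mul_right_comm π, mul_inv_cancel₀ pi_ne_zero, one_mul, rpow_zero, mul_one, rpow_two, sq_abs,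
    rpow_ofNat]

end Vale.Agent.N021B
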