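import Vale.Agent.N021B.Field

/-! The exponent of approximation to `π` by the elements of a real number field is two. -/

namespace Vale.Agent.N021B

open NumberField Height InfinitePlace

variable {K : Type*} [Field K] [NumberField K]

theorem cover (σ : K →+* ℝ) : ∃ C : ℝ, 1 ≤ C ∧ ∀ y : ℝ, ∃ a : 𝓞 K, |σ a - y| ≤ C ∧
    ∀ φ : K →+* ℂ, φ ≠ Complex.ofRealHom.comp σ → ‖φ a‖ ≤ C := by
  classical
  set φ₀ : K →+* ℂ := Complex.ofRealHom.comp σ with hφ₀
  have hr : ComplexEmbedding.IsReal φ₀ := by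
    rw [ComplexEmbedding.isReal_iff]
    ext x
    simp [hφ₀]
  have hw : IsReal (mk φ₀) := ⟨φ₀, hr, rfl⟩
  have hσ : ∀ x, embedding_of_isReal hw x = σ x := fun x => by
    have := embedding_of_isReal_apply hw x
    rw [embedding_mk_eq_of_isReal hr] at this
    exact Complex.ofReal_injective this
  set B := mixedEmbedding.latticeBasis K
  refine ⟨max 1 (∑ i, ‖B i‖), le_max_left _ _, fun y => ?_⟩
  set x : mixedEmbedding.mixedSpace K := (Pi.single ⟨mk φ₀, hw⟩ y, 0) with hx
  obtain ⟨a, ha⟩ := (mixedEmbedding.mem_span_latticeBasis K).1 (ZSpan.floor B x).2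
  have h1 : ‖x - mixedEmbedding K a‖ ≤ max 1 (∑ i, ‖B i‖) := by
    have := ZSpan.norm_fract_le B x
    rw [ZSpan.fract_apply, ← ha] at this
    exact this.trans (le_max_right _ _)
  have h2 : ∀ w, |x.1 w - (mixedEmbedding K a).1 w| ≤ max 1 (∑ i, ‖B i‖) := fun w =>
    ((norm_le_pi_norm (x - mixedEmbedding K a).1 w).trans (norm_fst_le _)).trans h1
  have h3 : ∀ w, ‖x.2 w - (mixedEmbedding K a).2 w‖ ≤ max 1 (∑ i, ‖B i‖) := fun w =>
    ((norm_le_pi_norm (x - mixedEmbedding K a).2 w).trans (norm_snd_le _)).trans h1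
  refine ⟨a, ?_, fun φ hφ => ?_⟩
  · have := h2 ⟨mk φ₀, hw⟩
    rw [mixedEmbedding.mixedEmbedding_apply_isReal, hσ, abs_sub_comm] at this
    simpa [hx] using this
  · rw [← InfinitePlace.apply]
    rcases isReal_or_isComplex (mk φ) with h | h
    · have hne : (⟨mk φ, h⟩ : {w : InfinitePlace K // IsReal w}) ≠ ⟨mk φ₀, hw⟩ := by
        intro h0
        rcases mk_eq_iff.1 (congrArg Subtype.val h0.symm) with h4 | h4
        · exact hφ h4.symm
        · exact hφ (h4.symm.trans (ComplexEmbedding.isReal_iff.1 hr))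
      have := h2 ⟨mk φ, h⟩
      have h5 : x.1 ⟨mk φ, h⟩ = 0 := by simp [hx, Pi.single_eq_of_ne hne]
      rw [mixedEmbedding.mixedEmbedding_apply_isReal, h5, zero_sub,
        abs_neg, ← Real.norm_eq_abs, norm_embedding_of_isReal] at this
      exact this
    · have := h3 ⟨mk φ, h⟩
      have h5 : x.2 ⟨mk φ, h⟩ = 0 := rfl
      rw [mixedEmbedding.mixedEmbedding_apply_isComplex, h5, zero_sub, norm_neg,
        norm_embedding_eq] at this
      exact this

theorem height_div_le (a b : 𝓞 K) (hb : b ≠ 0) :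
    mulHeight₁ ((a : K) / b) ≤ ∏ φ : K →+* ℂ, max ‖φ a‖ ‖φ b‖ := by
  set x : Fin 2 → 𝓞 K := ![a, b] with hx
  have e1 : ![(a : K), (b : K)] = fun i => (x i : K) := by
    ext i
    fin_cases i <;> rfl
  have hx0 : x ≠ 0 := fun h => hb (congrFun h 1)
  have hx1 : (x 1 : K) ≠ 0 := by exact_mod_cast hb
  rw [mulHeight₁_div_eq_mulHeight, e1,
    NumberField.mulHeight_eq (K := K) (Function.ne_iff.2 ⟨1, hx1⟩),
    prod_places fun w => ⨆ i, w (x i : K)]
  have h1 := absNorm_mul_finprod_finitePlace_eq_one hx0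
  have h2 : (1 : ℝ) ≤ (Ideal.span (Set.range x)).absNorm := by
    have : (Ideal.span (Set.range x)).absNorm ≠ 0 := fun h => by simp [h] at h1
    exact_mod_cast Nat.one_le_iff_ne_zero.2 this
  rw [eq_inv_of_mul_eq_one_right h1]
  have h3 : ∀ φ : K →+* ℂ, ⨆ i, (mk φ) (x i : K) ≤ max ‖φ a‖ ‖φ b‖ := fun φ =>
    ciSup_le fun i => by
      fin_cases i
      · exact le_max_left _ _
      · exact le_max_right _ _
  have h4 : ∀ φ : K →+* ℂ, 0 ≤ ⨆ i, (mk φ) (x i : K) := fun φ =>
    Real.iSup_nonneg fun i => apply_nonneg _ _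
  exact (mul_le_of_le_one_right (Finset.prod_nonneg fun φ _ => h4 φ)
    (inv_le_one_of_one_le₀ h2)).trans (Finset.prod_le_prod (fun φ _ => h4 φ) fun φ _ => h3 φ)

/-- Dirichlet's theorem over a number field with a real embedding. -/
theorem dirichlet (σ : K →+* ℝ) (x : ℝ) : ∃ C : ℝ, ∀ δ : ℝ, 0 < δ → ∃ β : K,
    |x - σ β| < δ ∧ |x - σ β| * mulHeight₁ β ^ 2 ≤ C := by
  classical
  obtain ⟨C, hC, hcov⟩ := cover σ
  choose f hf1 hf2 using hcov
  set C3 := (|x| + 2) * (2 * C) ^ Fintype.card (K →+* ℂ) with hC3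
  refine ⟨16 * C ^ 2 * C3 ^ 2, fun δ hδ => ?_⟩
  obtain ⟨Q, hQ⟩ := exists_nat_gt (max 1 (2 * C / δ))
  have hQ1 : (1 : ℝ) < Q := (le_max_left _ _).trans_lt hQ
  have hQ2 : 2 * C / δ < Q := (le_max_right _ _).trans_lt hQ
  set b : ℕ → 𝓞 K := fun n => f (3 * C * n) with hb
  set a : ℕ → 𝓞 K := fun n => f (σ (b n) * x) with ha
  set u : ℕ → ℝ := fun n => (σ (b n) * x - σ (a n) + C) * (Q / (2 * C)) with hu
  obtain ⟨n, hn, n', hn', hne, heq⟩ := Finset.exists_ne_map_eq_of_card_lt_of_maps_to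
    (s := Finset.range (Q + 2)) (t := Finset.Icc (0 : ℤ) Q) (by simp) (f := fun n => ⌊u n⌋)
    (fun n _ => by
      have h1 := abs_le.1 (hf1 (σ (b n) * x))
      have h2 : 0 ≤ (Q : ℝ) / (2 * C) := by positivity
      simp only [Finset.coe_Icc, Set.mem_Icc]
      refine ⟨Int.floor_nonneg.2 (mul_nonneg (by linarith [h1.2]) h2), ?_⟩
      have h3 : u n ≤ (2 * C) * (Q / (2 * C)) :=
        mul_le_mul_of_nonneg_right (by linarith [h1.1]) h2
      rw [mul_div_cancel₀ _ (by positivity)] at h3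
      exact_mod_cast (Int.floor_le (u n)).trans h3)
  have h1 := Int.abs_sub_lt_one_of_floor_eq_floor heq
  set B := σ ((b n - b n' : 𝓞 K) : K) with hB
  set A := σ ((a n - a n' : 𝓞 K) : K) with hA
  have h2 : |B * x - A| < 2 * C / Q := by
    have : u n - u n' = (B * x - A) * (Q / (2 * C)) := by
      simp only [hu, hB, hA]
      push_cast
      simp only [map_sub]
      ring
    rw [this, abs_mul, abs_of_pos (show (0 : ℝ) < Q / (2 * C) by positivity),
      ← lt_div_iff₀ (by positivity), one_div_div] at h1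
    exact h1
  have hBeq : B = σ (b n) - σ (b n') := by
    simp only [hB]
    push_cast
    rw [map_sub]
  have h3 := abs_le.1 (hf1 (3 * C * n))
  have h4 := abs_le.1 (hf1 (3 * C * n'))
  have hnQ : (n : ℝ) ≤ Q + 1 := by exact_mod_cast Nat.lt_succ_iff.1 (Finset.mem_range.1 hn)
  have hnQ' : (n' : ℝ) ≤ Q + 1 := by exact_mod_cast Nat.lt_succ_iff.1 (Finset.mem_range.1 hn')
  have hn0 : (0 : ℝ) ≤ n := by positivity
  have hn0' : (0 : ℝ) ≤ n' := by positivity
  have h5 : C ≤ |B| := by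
    rw [hBeq]
    rcases lt_or_gt_of_ne hne with h | h
    · have : (n : ℝ) + 1 ≤ n' := by exact_mod_cast h
      exact le_abs.2 (Or.inr (by nlinarith [h3.2, h4.1]))
    · have : (n' : ℝ) + 1 ≤ n := by exact_mod_cast h
      exact le_abs.2 (Or.inl (by nlinarith [h3.1, h4.2]))
  have h6 : |B| ≤ 8 * C * Q := by
    rw [hBeq, abs_le]
    constructor <;> nlinarith [h3.1, h3.2, h4.1, h4.2]
  have hB0 : 0 < |B| := by linarith
  have hB1 : B ≠ 0 := abs_pos.1 hB0
  have hb0 : b n - b n' ≠ 0 := fun h => hB1 (by rw [hB, h]; simp)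
  have h7 : 2 * C / Q ≤ 2 * C := div_le_self (by linarith) hQ1.le
  have h8 : |A| ≤ (|x| + 2) * |B| := by
    have := abs_sub_abs_le_abs_sub A (B * x)
    rw [abs_sub_comm, abs_mul] at this
    nlinarith
  have h9 : mulHeight₁ (((a n - a n' : 𝓞 K) : K) / (b n - b n' : 𝓞 K)) ≤ C3 * |B| := by
    refine (height_div_le _ _ hb0).trans ?_
    rw [← Finset.mul_prod_erase _ _ (Finset.mem_univ (Complex.ofRealHom.comp σ)), hC3,
      mul_right_comm]
    refine mul_le_mul (max_le ?_ ?_) ?_ (Finset.prod_nonneg fun _ _ => by positivity)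
      (by positivity)
    · exact (Complex.norm_real A).trans_le h8
    · exact (Complex.norm_real B).trans_le
        (show |B| ≤ (|x| + 2) * |B| by nlinarith [abs_nonneg x])
    · refine (Finset.prod_le_prod (g := fun _ => 2 * C) (fun _ _ => by positivity)
        fun φ hφ => ?_).trans (by
          rw [Finset.prod_const]
          exact pow_le_pow_right₀ (by linarith) (Finset.card_le_univ _))
      have hφ' := (Finset.mem_erase.1 hφ).1
      have : ∀ y y', ‖φ ((f y - f y' : 𝓞 K) : K)‖ ≤ 2 * C := fun y y' => by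
        push_cast
        rw [map_sub]
        linarith [norm_sub_le (φ (f y)) (φ (f y')), hf2 y φ hφ', hf2 y' φ hφ']
      exact max_le (this _ _) (this _ _)
  have h10 : |x - σ (((a n - a n' : 𝓞 K) : K) / (b n - b n' : 𝓞 K))| = |B * x - A| / |B| := by
    rw [map_div₀, ← hA, ← hB, ← abs_div]
    congr 1
    field_simp
  refine ⟨((a n - a n' : 𝓞 K) : K) / (b n - b n' : 𝓞 K), ?_, ?_⟩
  · rw [h10]
    refine ((div_le_self (abs_nonneg _) (by linarith)).trans_lt h2).trans ?_
    rw [div_lt_iff₀ hδ] at hQ2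
    rw [div_lt_iff₀ (by linarith)]
    linarith
  · rw [h10]
    have hC30 : 0 ≤ C3 := by positivity
    calc _ ≤ 2 * C / Q / |B| * (C3 * |B|) ^ 2 := by
          gcongr
      _ = 2 * C * C3 ^ 2 * (|B| / Q) := by field_simp
      _ ≤ 2 * C * C3 ^ 2 * (8 * C) := by
          gcongr
          rw [div_le_iff₀ (by linarith)]
          exact h6
      _ = _ := by ring

theorem lower_real (σ : K →+* ℝ) {ε : ℝ} (hε : 0 < ε) : ∃ κ : ℝ, 0 < κ ∧ ∀ β : K,
    κ ≤ mulHeight₁ β ^ (2 + ε) * min 1 |Real.pi - σ β| := by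
  classical
  obtain ⟨κ, hκ, h⟩ := lower_field (K := K) (fun _ => 1) hε
  refine ⟨min 1 κ, lt_min one_pos hκ, fun β => ?_⟩
  rcases eq_or_ne β 0 with rfl | hβ
  · have : (1 : ℝ) ≤ |Real.pi| := by
      rw [abs_of_pos Real.pi_pos]
      linarith [Real.pi_gt_three]
    simp [this]
  refine (min_le_right _ _).trans ((h β hβ).trans (mul_le_mul_of_nonneg_left ?_
    (Real.rpow_nonneg (mulHeight₁_nonneg _) _)))
  rw [← Finset.mul_prod_erase _ _ (Finset.mem_univ (Complex.ofRealHom.comp σ))]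
  refine (mul_le_of_le_one_right (by positivity)
    (Finset.prod_le_one (fun _ _ => by positivity) fun _ _ => min_le_left _ _)).trans
    (le_of_eq ?_)
  rw [← Real.norm_eq_abs, ← Complex.norm_real]
  simp

theorem isLUB_real (σ : K →+* ℝ) : IsLUB {ν : ℝ | 0 < ν ∧ {β : K | 0 < |Real.pi - σ β| ∧
    |Real.pi - σ β| < mulHeight₁ β ^ (-ν)}.Infinite} 2 := by
  refine ⟨fun ν hν => not_lt.1 fun h2 => hν.2 ?_, fun b hb => ?_⟩
  · set ε := (ν - 2) / 2 with hε
    have hε0 : 0 < ε := by linarith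
    obtain ⟨κ, hκ, h⟩ := lower_real σ hε0
    refine (finite_setOfPred_mulHeight₁_le K (κ⁻¹ ^ ε⁻¹)).subset fun β hβ => ?_
    have hH := mulHeight₁_pos β
    have h1 : κ ≤ mulHeight₁ β ^ (2 + ε) * mulHeight₁ β ^ (-ν) :=
      (h β).trans (mul_le_mul_of_nonneg_left ((min_le_right _ _).trans hβ.2.le) (by positivity))
    rw [← Real.rpow_add hH, show 2 + ε + -ν = -ε by linarith, Real.rpow_neg hH.le,
      le_inv_comm₀ hκ (by positivity)] at h1
    have h3 := Real.rpow_le_rpow (by positivity) h1 (inv_pos.2 hε0).le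
    rwa [← Real.rpow_mul hH.le, mul_inv_cancel₀ hε0.ne', Real.rpow_one] at h3
  · have key : ∀ ν : ℝ, 0 < ν → ν < 2 → ν ≤ b := by
      intro ν hν0 hν
      refine hb ⟨hν0, ?_⟩
      obtain ⟨C, hC⟩ := dirichlet σ Real.pi
      obtain ⟨κ, hκ, hlow⟩ := lower_real σ one_pos
      have hpos : ∀ β, 0 < |Real.pi - σ β| := fun β => by
        have h1 := pos_of_mul_pos_right (hκ.trans_le (hlow β))
          (Real.rpow_nonneg (mulHeight₁_nonneg β) _)
        exact h1.trans_le (min_le_right _ _)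
      have hinf : {β : K | |Real.pi - σ β| * mulHeight₁ β ^ 2 ≤ C}.Infinite := by
        intro hfin
        obtain ⟨β₁, -, h1⟩ := hC 1 one_pos
        obtain ⟨β₀, -, h2⟩ := Set.exists_min_image _ (fun β => |Real.pi - σ β|) hfin ⟨β₁, h1⟩
        obtain ⟨β, h3, h4⟩ := hC _ (hpos β₀)
        exact absurd (h2 β h4) (not_le.2 h3)
      refine (hinf.sdiff (finite_setOfPred_mulHeight₁_le K ((max C 1) ^ (2 - ν)⁻¹))).mono
        fun β hβ => ⟨hpos β, ?_⟩
      have hH := mulHeight₁_pos β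
      have h1 := Real.rpow_lt_rpow (by positivity) (not_le.1 hβ.2) (show 0 < 2 - ν by linarith)
      rw [← Real.rpow_mul (by positivity), inv_mul_cancel₀ (by linarith), Real.rpow_one] at h1
      have h2 : |Real.pi - σ β| * mulHeight₁ β ^ 2 < mulHeight₁ β ^ (2 - ν) :=
        lt_of_le_of_lt (le_trans hβ.1 (le_max_left _ _)) h1
      rw [sub_eq_add_neg 2, Real.rpow_add hH, Real.rpow_two, mul_comm] at h2
      exact lt_of_mul_lt_mul_left h2 (by positivity)
    refine le_of_forall_lt_imp_le_of_dense fun ν hν => ?_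
    exact (le_max_left ν 1).trans (key _ (by positivity) (max_lt hν (by norm_num)))

end Vale.Agent.N021B
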